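import Mathlib.Analysis.SpecialFunctions.Log.Deriv
import Mathlib.Analysis.Complex.ExponentialBounds
import Mathlib.Tactic

/-!
# A kernel-checked box prover (affine arithmetic in four variables) — definitions

All numbers are fixed point at scale `S = 2^40`.  Everything is written in continuation style with
explicit recursors so that `decide +kernel` evaluates it quickly.
-/

set_option autoImplicit false

namespace Crest.Agent.Lib.IBox

noncomputable section

/-- the scale -/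
def S : ℕ := 1099511627776

/-- evaluate `x` before continuing -/
def frN (x : ℕ) (k : ℕ → Bool) : Bool := Nat.rec (k 0) (fun y _ => k (Nat.succ y)) x
def frI (x : ℤ) (k : ℤ → Bool) : Bool :=
  Int.rec (fun n => frN n fun n' => k (Int.ofNat n')) (fun n => frN n fun n' => k (Int.negSucc n')) x

/-- floor of `x / 2^40` -/
def sh (x : ℤ) : ℤ :=
  Int.rec (fun n => Int.ofNat (Nat.shiftRight n 40)) (fun n => Int.negSucc (Nat.shiftRight n 40)) x
/-- absolute value -/
def ab (x : ℤ) : ℕ := Int.rec (fun n => n) (fun n => Nat.succ n) x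
/-- floor of `x / (d+1)` -/
def dv (x : ℤ) (d : ℕ) : ℤ :=
  Int.rec (fun n => Int.ofNat (Nat.div n (Nat.succ d))) (fun n => Int.negSucc (Nat.div n (Nat.succ d))) x

/-- affine forms `c + a u₁ + b u₂ + d u₃ + f u₄ ± e` -/
structure AF where
  c : ℤ
  a : ℤ
  b : ℤ
  d : ℤ
  f : ℤ
  e : ℕ

def mk (c a b d f : ℤ) (e : ℕ) (k : AF → Bool) : Bool :=
  frI c fun c => frI a fun a => frI b fun b => frI d fun d => frI f fun f => frN e fun e =>
    k ⟨c, a, b, d, f, e⟩

def AF.rad (A : AF) : ℕ :=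
  Nat.add (Nat.add (Nat.add (Nat.add (ab A.a) (ab A.b)) (ab A.d)) (ab A.f)) A.e

def addK (A B : AF) (k : AF → Bool) : Bool :=
  mk (Int.add A.c B.c) (Int.add A.a B.a) (Int.add A.b B.b) (Int.add A.d B.d) (Int.add A.f B.f)
    (Nat.add A.e B.e) k

def subK (A B : AF) (k : AF → Bool) : Bool :=
  mk (Int.sub A.c B.c) (Int.sub A.a B.a) (Int.sub A.b B.b) (Int.sub A.d B.d) (Int.sub A.f B.f)
    (Nat.add A.e B.e) k

def negK (A : AF) (k : AF → Bool) : Bool :=
  mk (Int.neg A.c) (Int.neg A.a) (Int.neg A.b) (Int.neg A.d) (Int.neg A.f) A.e k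

def mulK (A B : AF) (k : AF → Bool) : Bool :=
  mk (sh (Int.mul A.c B.c))
    (sh (Int.add (Int.mul A.c B.a) (Int.mul B.c A.a)))
    (sh (Int.add (Int.mul A.c B.b) (Int.mul B.c A.b)))
    (sh (Int.add (Int.mul A.c B.d) (Int.mul B.c A.d)))
    (sh (Int.add (Int.mul A.c B.f) (Int.mul B.c A.f)))
    (Nat.add (Nat.shiftRight (Nat.add (Nat.add (Nat.mul (ab A.c) B.e) (Nat.mul (ab B.c) A.e))
      (Nat.mul A.rad B.rad)) 40) 6) k

/-- multiplication by the rational `n/(d+1)` -/
def smK (n : ℤ) (d : ℕ) (A : AF) (k : AF → Bool) : Bool :=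
  mk (dv (Int.mul n A.c) d) (dv (Int.mul n A.a) d) (dv (Int.mul n A.b) d) (dv (Int.mul n A.d) d)
    (dv (Int.mul n A.f) d) (Nat.add (Nat.div (Nat.mul (ab n) A.e) (Nat.succ d)) 6) k

/-- linearisation with slope `al/S`, value `V`, error `E` -/
def linK (A : AF) (al V : ℤ) (E : ℕ) (k : AF → Bool) : Bool :=
  frI al fun al =>
  mk V (sh (Int.mul al A.a)) (sh (Int.mul al A.b)) (sh (Int.mul al A.d)) (sh (Int.mul al A.f))
    (Nat.add (Nat.add E (Nat.shiftRight (Nat.mul (ab al) A.e) 40)) 5) k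

def sqK (A : AF) (k : AF → Bool) : Bool :=
  frN A.rad fun r => frN (Nat.shiftRight (Nat.mul r r) 41) fun q =>
    linK A (Int.add A.c A.c) (Int.add (sh (Int.mul A.c A.c)) (Int.ofNat q)) (Nat.add q 3) k

/-- one Horner step for `exp`, rounded down / up -/
def eL (z j p : ℕ) : ℕ := Nat.add S (Nat.div (Nat.shiftRight (Nat.mul z p) 40) j)
def eU (z j p : ℕ) : ℕ := Nat.add 1099511627778 (Nat.div (Nat.shiftRight (Nat.mul z p) 40) j)
def sL (p : ℕ) (k : ℕ → Bool) : Bool := frN p fun p => k (Nat.shiftRight (Nat.mul p p) 40)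
def sU (p : ℕ) (k : ℕ → Bool) : Bool := frN p fun p => k (Nat.succ (Nat.shiftRight (Nat.mul p p) 40))

/-- enclosure of `S * exp (n/S)` for `n ≤ 8 S` -/
def expN (n : ℕ) (k : ℕ → ℕ → Bool) : Bool :=
  frN (Nat.shiftRight n 5) fun z => frN (Nat.succ z) fun w =>
  sL (eL z 1 (eL z 2 (eL z 3 (eL z 4 (eL z 5 (eL z 6 (eL z 7 (eL z 8 S)))))))) fun p =>
  sL p fun p => sL p fun p => sL p fun p => sL p fun p => frN p fun p =>
  sU (eU w 1 (eU w 2 (eU w 3 (eU w 4 (eU w 5 (eU w 6 (eU w 7 (eU w 8 (eU w 9 2199023255552))))))))) fun q =>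
  sU q fun q => sU q fun q => sU q fun q => sU q fun q => frN q fun q => k p q

def expI (m : ℤ) (k : ℕ → ℕ → Bool) : Bool :=
  Int.rec (fun n => Bool.rec false (expN n k) (Nat.ble n 8796093022208))
    (fun n => Bool.rec false (expN (Nat.succ n) fun p q =>
      frN (Nat.div 1208925819614629174706176 q) fun p' =>
      frN (Nat.succ (Nat.div 1208925819614629174706176 p)) fun q' => k p' q')
      (Nat.ble n 8796093022207)) m

def expK (A : AF) (k : AF → Bool) : Bool :=
  frN A.rad fun r => Bool.rec false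
    (expI A.c fun L H => frN (Nat.mul r r) fun r2 =>
      frN (Nat.shiftRight (Nat.mul L (Nat.add (Nat.add (Nat.shiftRight r2 41)
        (Nat.shiftRight (Nat.mul r2 r) 82)) 2)) 41) fun q =>
      linK A (Int.ofNat L) (Int.ofNat (Nat.add L q)) (Nat.add (Nat.add (Nat.mul 3 (Nat.sub H L)) q) 2) k)
    (Nat.ble r S)

/-- one Horner step for `artanh`, rounded down / up -/
def lL (y c p : ℕ) : ℕ := Nat.add c (Nat.shiftRight (Nat.mul y p) 40)

/-- enclosure of `S * log (m/p)` for `p ≤ m ≤ 2p` -/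
def logN (m p : ℕ) (k : ℕ → ℕ → Bool) : Bool :=
  frN (Nat.div (Nat.mul (Nat.sub m p) S) (Nat.add m p)) fun s => frN (Nat.succ s) fun s' =>
  frN (Nat.shiftRight (Nat.mul s s) 40) fun y => frN (Nat.succ (Nat.shiftRight (Nat.mul s' s') 40)) fun y' =>
  frN (Nat.shiftRight (Nat.mul s (lL y 1099511627776 (lL y 366503875925 (lL y 219902325555
    (lL y 157073089682 (lL y 122167958641 (lL y 99955602525 (lL y 84577817521 (lL y 73300775185
      64677154575))))))))) 39) fun L =>
  frN (Nat.succ (Nat.shiftRight (Nat.mul s' (lL y' 1099511627777 (lL y' 366503875927 (lL y' 219902325557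
    (lL y' 157073089684 (lL y' 122167958643 (lL y' 99955602527 (lL y' 84577817523 (lL y' 73300775187
      77612585491))))))))) 39)) fun H => k L H

def logP (A : AF) (m : ℕ) (k : AF → Bool) : Bool :=
  frN A.rad fun r => frN (Nat.log2 m) fun j => frN (Nat.pow 2 j) fun p =>
  Bool.rec false
    (logN m p fun L H => frN (Nat.succ (Nat.div (Nat.mul r S) m)) fun ro => frN (Nat.mul ro ro) fun r2 =>
      frN (Nat.add (Nat.add (Nat.shiftRight r2 42) (Nat.shiftRight (Nat.mul r2 ro) 80)) 2) fun q =>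
      frI (Int.subNatNat j 40) fun jj =>
      linK A (Int.ofNat (Nat.div 1208925819614629174706176 m))
        (Int.add (Int.mul jj (Int.ofNat 762123384774)) (Int.subNatNat L q))
        (Nat.add (Nat.add (Nat.add (Nat.add (Nat.sub H L) (Nat.mul (ab jj) 276)) q) (Nat.shiftRight r 40)) 1) k)
    (Bool.rec false (Bool.rec false (Nat.ble (Nat.add r r) m) (Nat.ble m (Nat.add p p))) (Nat.ble p m))

def logK (A : AF) (k : AF → Bool) : Bool :=
  Int.rec (fun n => logP A n k) (fun _ => false) A.c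

def invP (A : AF) (m : ℕ) (k : AF → Bool) : Bool :=
  frN A.rad fun r =>
  Bool.rec false
    (frN (Nat.succ (Nat.div (Nat.mul r S) m)) fun ro => frN (Nat.mul ro ro) fun r2 =>
      frN (Nat.div 1208925819614629174706176 m) fun I =>
      frN (Nat.shiftRight (Nat.mul I (Nat.add (Nat.add (Nat.shiftRight r2 40)
        (Nat.shiftRight (Nat.mul r2 ro) 79)) 2)) 41) fun q =>
      linK A (Int.neg (Int.ofNat (Nat.div 1329227995784915872903807060280344576 (Nat.mul m m))))
        (Int.ofNat (Nat.add I q)) (Nat.add (Nat.add q (Nat.shiftRight r 40)) 5) k)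
    (Nat.ble (Nat.succ (Nat.add r r)) m)

def invK (A : AF) (k : AF → Bool) : Bool :=
  Int.rec (fun n => invP A n k)
    (fun n => negK A fun B => invP B (Nat.succ n) fun C => negK C k) A.c

/-- sign test: `kp` when the form is `≥ 0`, `kn` when it is `≤ 0`, `ku` (given the radius) otherwise -/
def sgK (A : AF) (kp kn : Bool) (ku : ℕ → Bool) : Bool :=
  frN A.rad fun r =>
    Int.rec (fun n => Bool.rec (ku r) kp (Nat.ble r n)) (fun n => Bool.rec (ku r) kn (Nat.ble r (Nat.succ n))) A.c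

/-- linearisation of the positive part when `|c| < r` -/
def posK (A : AF) (r : ℕ) (k : AF → Bool) : Bool :=
  frN (Int.toNat (Int.add A.c (Int.ofNat r))) fun hi => frN (Int.toNat (Int.sub (Int.ofNat r) A.c)) fun lo =>
  frN (Nat.div (Nat.mul hi S) (Nat.add r r)) fun al =>
  frN (Nat.add (Nat.add (Nat.div (Nat.mul hi lo) (Nat.mul 4 r)) (Nat.shiftRight hi 40)) 2) fun q =>
    linK A (Int.ofNat al) (Int.add (sh (Int.mul (Int.ofNat al) A.c)) (Int.ofNat q)) (Nat.succ q) k

def maxK (A B : AF) (k : AF → Bool) : Bool :=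
  subK A B fun D => sgK D (k A) (k B) fun r => posK D r fun C => addK B C k
def minK (A B : AF) (k : AF → Bool) : Bool :=
  subK A B fun D => sgK D (k B) (k A) fun r => posK D r fun C => subK A C k
def maxS (A B : AF) (k : AF → Bool) : Bool :=
  subK A B fun D => sgK D (k A) (k B) fun _ => Bool.rec false (k B) (k A)
def minS (A B : AF) (k : AF → Bool) : Bool :=
  subK A B fun D => sgK D (k B) (k A) fun _ => Bool.rec false (k B) (k A)

def getK (i : ℕ) : List AF → (AF → Bool) → Bool :=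
  Nat.rec (fun l k => List.rec false (fun A _ _ => k A) l)
    (fun _ ih l k => List.rec false (fun _ t _ => ih t k) l) i

/-- expressions; `c n d` is `n/(d+1)`, `sm n d x` is `n/(d+1) * x`; `maxs`, `mins` split into cases -/
inductive Ex where
  | v (i : ℕ)
  | c (n : ℤ) (d : ℕ)
  | add (x y : Ex)
  | sub (x y : Ex)
  | mul (x y : Ex)
  | neg (x : Ex)
  | sm (n : ℤ) (d : ℕ) (x : Ex)
  | sq (x : Ex)
  | inv (x : Ex)
  | exp (x : Ex)
  | log (x : Ex)
  | max (x y : Ex)
  | min (x y : Ex)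
  | maxs (x y : Ex)
  | mins (x y : Ex)

def Ex.val (ρ : List ℝ) : Ex → ℝ
  | .v i => ρ.getD i 0
  | .c n d => (n : ℝ) / ((d : ℝ) + 1)
  | .add x y => x.val ρ + y.val ρ
  | .sub x y => x.val ρ - y.val ρ
  | .mul x y => x.val ρ * y.val ρ
  | .neg x => -x.val ρ
  | .sm n d x => (n : ℝ) / ((d : ℝ) + 1) * x.val ρ
  | .sq x => x.val ρ ^ 2
  | .inv x => (x.val ρ)⁻¹
  | .exp x => Real.exp (x.val ρ)
  | .log x => Real.log (x.val ρ)
  | .max x y => Max.max (x.val ρ) (y.val ρ)
  | .min x y => Min.min (x.val ρ) (y.val ρ)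
  | .maxs x y => Max.max (x.val ρ) (y.val ρ)
  | .mins x y => Min.min (x.val ρ) (y.val ρ)

def ev (env : List AF) (x : Ex) : (AF → Bool) → Bool :=
  Ex.rec (motive := fun _ => (AF → Bool) → Bool)
    (fun i k => getK i env k)
    (fun n d k => frI (dv (Int.mul n (Int.ofNat S)) d) fun c =>
      k ⟨c, Int.ofNat 0, Int.ofNat 0, Int.ofNat 0, Int.ofNat 0, 1⟩)
    (fun _ _ p q k => p fun A => q fun B => addK A B k)
    (fun _ _ p q k => p fun A => q fun B => subK A B k)
    (fun _ _ p q k => p fun A => q fun B => mulK A B k)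
    (fun _ p k => p fun A => negK A k)
    (fun n d _ p k => p fun A => smK n d A k)
    (fun _ p k => p fun A => sqK A k)
    (fun _ p k => p fun A => invK A k)
    (fun _ p k => p fun A => expK A k)
    (fun _ p k => p fun A => logK A k)
    (fun _ _ p q k => p fun A => q fun B => maxK A B k)
    (fun _ _ p q k => p fun A => q fun B => minK A B k)
    (fun _ _ p q k => p fun A => q fun B => maxS A B k)
    (fun _ _ p q k => p fun A => q fun B => minS A B k) x

/-- the form is positive on the whole box -/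
def AF.pos (A : AF) : Bool := Int.rec (fun n => Nat.ble (Nat.succ A.rad) n) (fun _ => false) A.c

/-- programs: `push` stores a value in register 0 (shifting the others), `tst` succeeds when its value
is positive -/
inductive Pg where
  | nil
  | push (x : Ex) (p : Pg)
  | tst (x : Ex) (p : Pg)

def Pg.Good : Pg → List ℝ → Prop
  | .nil, _ => False
  | .push x p, ρ => p.Good (x.val ρ :: ρ)
  | .tst x p, ρ => 0 < x.val ρ ∨ p.Good ρ

def ok (p : Pg) : List AF → Bool :=
  Pg.rec (motive := fun _ => List AF → Bool) (fun _ => false)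
    (fun x _ ih env => ev env x fun A => ih (List.cons A env))
    (fun x _ ih env => Bool.rec (ih env) true (ev env x AF.pos)) p

/-- boxes, at scale `S` -/
structure Bx where
  l1 : ℤ
  h1 : ℤ
  l2 : ℤ
  h2 : ℤ
  l3 : ℤ
  h3 : ℤ
  l4 : ℤ
  h4 : ℤ

/-- floor of the midpoint -/
def mid (l h : ℤ) : ℤ := dv (Int.add l h) 1

def leaf (env : List AF) (p : Pg) (B : Bx) : Bool :=
  frI (mid B.l1 B.h1) fun c1 => frI (Int.sub B.h1 c1) fun r1 =>
  frI (mid B.l2 B.h2) fun c2 => frI (Int.sub B.h2 c2) fun r2 =>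
  frI (mid B.l3 B.h3) fun c3 => frI (Int.sub B.h3 c3) fun r3 =>
  frI (mid B.l4 B.h4) fun c4 => frI (Int.sub B.h4 c4) fun r4 =>
  ok p (List.cons ⟨c1, r1, Int.ofNat 0, Int.ofNat 0, Int.ofNat 0, 0⟩
    (List.cons ⟨c2, Int.ofNat 0, r2, Int.ofNat 0, Int.ofNat 0, 0⟩
    (List.cons ⟨c3, Int.ofNat 0, Int.ofNat 0, r3, Int.ofNat 0, 0⟩
    (List.cons ⟨c4, Int.ofNat 0, Int.ofNat 0, Int.ofNat 0, r4, 0⟩ env))))

/-- the two halves of a box along coordinate `i` (0,1,2, or anything else for the fourth) -/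
def halves (i : ℕ) (B : Bx) (k : Bx → Bx → Bool) : Bool :=
  Nat.rec (frI (mid B.l1 B.h1) fun m =>
      k ⟨B.l1, m, B.l2, B.h2, B.l3, B.h3, B.l4, B.h4⟩ ⟨m, B.h1, B.l2, B.h2, B.l3, B.h3, B.l4, B.h4⟩)
    (fun i _ => Nat.rec (frI (mid B.l2 B.h2) fun m =>
        k ⟨B.l1, B.h1, B.l2, m, B.l3, B.h3, B.l4, B.h4⟩ ⟨B.l1, B.h1, m, B.h2, B.l3, B.h3, B.l4, B.h4⟩)
      (fun i _ => Nat.rec (frI (mid B.l3 B.h3) fun m =>
          k ⟨B.l1, B.h1, B.l2, B.h2, B.l3, m, B.l4, B.h4⟩ ⟨B.l1, B.h1, B.l2, B.h2, m, B.h3, B.l4, B.h4⟩)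
        (fun _ _ => frI (mid B.l4 B.h4) fun m =>
          k ⟨B.l1, B.h1, B.l2, B.h2, B.l3, B.h3, B.l4, m⟩ ⟨B.l1, B.h1, B.l2, B.h2, B.l3, B.h3, m, B.h4⟩)
        i) i) i

/-- run a bisection tree given in preorder by base-8 digits (0 = leaf, `i+1` = split coordinate `i`) -/
def run (env : List AF) (p : Pg) (fuel : ℕ) : ℕ → Bx → (ℕ → Bool) → Bool :=
  Nat.rec (fun _ _ _ => false)
    (fun _ ih code B k => frN (Nat.shiftRight code 3) fun rest =>
      Nat.rec (Bool.rec false (k rest) (leaf env p B))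
        (fun i _ => halves i B fun B1 B2 => ih rest B1 fun rest' => ih rest' B2 k)
        (Nat.land code 7)) fuel

/-- evaluate a list of closed constants once; later ones may use earlier ones -/
def pre (cs : List Ex) : List AF → (List AF → Bool) → Bool :=
  List.rec (fun env k => k env) (fun x _ ih env k => ev env x fun A =>
    ih (List.cons ⟨A.c, Int.ofNat 0, Int.ofNat 0, Int.ofNat 0, Int.ofNat 0, A.e⟩ env) k) cs

def preV : List Ex → List ℝ → List ℝ
  | [], ρ => ρ
  | x :: cs, ρ => preV cs (x.val ρ :: ρ)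

def check (cs : List Ex) (p : Pg) (B : Bx) (code : ℕ) : Bool :=
  pre cs List.nil fun env => run env p 200 code B fun _ => true

def Bx.In (B : Bx) (x y z w : ℝ) : Prop :=
  (B.l1 : ℝ) ≤ x * S ∧ x * S ≤ B.h1 ∧ (B.l2 : ℝ) ≤ y * S ∧ y * S ≤ B.h2 ∧
  (B.l3 : ℝ) ≤ z * S ∧ z * S ≤ B.h3 ∧ (B.l4 : ℝ) ≤ w * S ∧ w * S ≤ B.h4

/-- the statement certified by `check` -/
def Holds (cs : List Ex) (p : Pg) (B : Bx) : Prop :=
  ∀ x y z w : ℝ, B.In x y z w → p.Good (x :: y :: z :: w :: preV cs [])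

end

end Crest.Agent.Lib.IBox
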