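import Crest.Agent.Lib.IBox

/-! # Soundness of the box prover: arithmetic -/

set_option autoImplicit false

namespace Crest.Agent.Lib.IBox

theorem frN_eq (x : ℕ) (k : ℕ → Bool) : frN x k = k x := by cases x <;> rfl
theorem frI_eq (x : ℤ) (k : ℤ → Bool) : frI x k = k x := by
  cases x <;> simp only [frI, frN_eq]
theorem mk_eq (c a b d f : ℤ) (e : ℕ) (k : AF → Bool) : mk c a b d f e k = k ⟨c, a, b, d, f, e⟩ := by
  simp only [mk, frI_eq, frN_eq]

theorem S_val : (S : ℝ) = 2 ^ 40 := by unfold S; norm_num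
theorem S_pos : (0 : ℝ) < S := by rw [S_val]; positivity

theorem ndiv_le (n d : ℕ) : ((Nat.div n d : ℕ) : ℝ) ≤ (n : ℝ) / d := Nat.cast_div_le
theorem lt_ndiv (n d : ℕ) (hd : 0 < d) : (n : ℝ) + 1 ≤ (((Nat.div n d : ℕ) : ℝ) + 1) * d := by
  have h : n + 1 ≤ (n / d + 1) * d := by
    have := Nat.lt_div_mul_add (a := n) hd
    nlinarith
  exact_mod_cast h
theorem le_ndiv (n d : ℕ) (hd : 0 < d) : (n : ℝ) / d ≤ ((Nat.div n d : ℕ) : ℝ) + 1 := by
  have h := lt_ndiv n d hd
  have hd' : (0 : ℝ) < d := by exact_mod_cast hd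
  rw [div_le_iff₀ hd']; linarith
theorem shr_eq (n k : ℕ) : Nat.shiftRight n k = Nat.div n (2 ^ k) := Nat.shiftRight_eq_div_pow n k
theorem shr_le (n k : ℕ) : ((Nat.shiftRight n k : ℕ) : ℝ) ≤ (n : ℝ) / 2 ^ k := by
  rw [shr_eq]; simpa using ndiv_le n (2 ^ k)
theorem le_shr (n k : ℕ) : (n : ℝ) / 2 ^ k ≤ ((Nat.shiftRight n k : ℕ) : ℝ) + 1 := by
  rw [shr_eq]; simpa using le_ndiv n (2 ^ k) (by positivity)

theorem nadd (a b : ℕ) : ((Nat.add a b : ℕ) : ℝ) = a + b := Nat.cast_add a b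
theorem nmul (a b : ℕ) : ((Nat.mul a b : ℕ) : ℝ) = a * b := Nat.cast_mul a b
theorem nsucc (a : ℕ) : ((Nat.succ a : ℕ) : ℝ) = a + 1 := Nat.cast_succ a
theorem iadd (a b : ℤ) : ((Int.add a b : ℤ) : ℝ) = a + b := Int.cast_add a b
theorem isub (a b : ℤ) : ((Int.sub a b : ℤ) : ℝ) = a - b := Int.cast_sub a b
theorem imul (a b : ℤ) : ((Int.mul a b : ℤ) : ℝ) = a * b := Int.cast_mul a b
theorem ineg (a : ℤ) : ((Int.neg a : ℤ) : ℝ) = -a := Int.cast_neg a
theorem iofNat (a : ℕ) : ((Int.ofNat a : ℤ) : ℝ) = a := by simp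
theorem inegSucc (a : ℕ) : ((Int.negSucc a : ℤ) : ℝ) = -(a + 1) := by simp
theorem isubNatNat (a b : ℕ) : ((Int.subNatNat a b : ℤ) : ℝ) = a - b := by simp
theorem nsub_ge (a b : ℕ) : (a : ℝ) - b ≤ ((Nat.sub a b : ℕ) : ℝ) := by
  have : a ≤ Nat.sub a b + b := le_tsub_add
  have : (a : ℝ) ≤ (Nat.sub a b : ℕ) + b := by exact_mod_cast this
  linarith
theorem ble_le {a b : ℕ} (h : Nat.ble a b = true) : (a : ℝ) ≤ b := by
  exact_mod_cast Nat.le_of_ble_eq_true h

theorem brec {a b : Bool} (h : Bool.rec false a b = true) : b = true ∧ a = true := by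
  cases b <;> simp_all

theorem ab_eq (x : ℤ) : ((ab x : ℕ) : ℝ) = |(x : ℝ)| := by
  cases x with
  | ofNat n => show ((n : ℕ) : ℝ) = _; simp
  | negSucc n =>
    show ((Nat.succ n : ℕ) : ℝ) = _
    rw [inegSucc, abs_neg, abs_of_nonneg (by positivity), nsucc]

theorem dv_spec (x : ℤ) (d : ℕ) :
    ((dv x d : ℤ) : ℝ) ≤ (x : ℝ) / (d + 1) ∧ (x : ℝ) / (d + 1) ≤ (dv x d : ℤ) + 1 := by
  have hd : (0 : ℝ) < d + 1 := by positivity
  cases x with
  | ofNat n =>
    have h1 := ndiv_le n (Nat.succ d)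
    have h2 := le_ndiv n (Nat.succ d) (Nat.succ_pos d)
    rw [nsucc] at h1 h2
    show ((Int.ofNat (Nat.div n (Nat.succ d)) : ℤ) : ℝ) ≤ _ ∧ _ ≤ ((Int.ofNat (Nat.div n (Nat.succ d)) : ℤ) : ℝ) + 1
    rw [iofNat, iofNat]; exact ⟨h1, h2⟩
  | negSucc n =>
    have h1 := ndiv_le n (Nat.succ d)
    have h2 := lt_ndiv n (Nat.succ d) (Nat.succ_pos d)
    rw [nsucc] at h1 h2
    show ((Int.negSucc (Nat.div n (Nat.succ d)) : ℤ) : ℝ) ≤ _ ∧
      _ ≤ ((Int.negSucc (Nat.div n (Nat.succ d)) : ℤ) : ℝ) + 1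
    rw [inegSucc, inegSucc]
    rw [le_div_iff₀ hd] at h1
    constructor
    · rw [le_div_iff₀ hd]; linarith
    · rw [div_le_iff₀ hd]; nlinarith

theorem dv_abs (x : ℤ) (d : ℕ) : |((dv x d : ℤ) : ℝ) - (x : ℝ) / (d + 1)| ≤ 1 := by
  obtain ⟨h1, h2⟩ := dv_spec x d
  rw [abs_le]; constructor <;> linarith

theorem sh_eq (x : ℤ) : sh x = dv x 1099511627775 := by
  cases x with
  | ofNat n => show Int.ofNat (Nat.shiftRight n 40) = Int.ofNat (Nat.div n _); rw [shr_eq]; rfl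
  | negSucc n => show Int.negSucc (Nat.shiftRight n 40) = Int.negSucc (Nat.div n _); rw [shr_eq]; rfl

theorem sh_spec (x : ℤ) : ((sh x : ℤ) : ℝ) ≤ (x : ℝ) / S ∧ (x : ℝ) / S ≤ (sh x : ℤ) + 1 := by
  have h := dv_spec x 1099511627775
  have e : ((1099511627775 : ℕ) : ℝ) + 1 = S := by rw [S_val]; norm_num
  rw [e, ← sh_eq] at h; exact h

theorem sh_abs (x : ℤ) : |((sh x : ℤ) : ℝ) - (x : ℝ) / S| ≤ 1 := by
  obtain ⟨h1, h2⟩ := sh_spec x
  rw [abs_le]; constructor <;> linarith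

/-- the noise symbols -/
structure Nz where
  p : ℝ
  q : ℝ
  r : ℝ
  s : ℝ
  hp : |p| ≤ 1
  hq : |q| ≤ 1
  hr : |r| ≤ 1
  hs : |s| ≤ 1

def AF.ln (A : AF) (u : Nz) : ℝ := A.a * u.p + A.b * u.q + A.d * u.r + A.f * u.s

def AF.mem (u : Nz) (A : AF) (x : ℝ) : Prop := |x * S - (A.c + A.ln u)| ≤ A.e

theorem abs_mul_le1 (a : ℝ) {p : ℝ} (hp : |p| ≤ 1) : |a * p| ≤ |a| := by
  rw [abs_mul]; exact mul_le_of_le_one_right (abs_nonneg _) hp

theorem lin4 (u : Nz) (a b d f : ℝ) : |a * u.p + b * u.q + d * u.r + f * u.s| ≤ |a| + |b| + |d| + |f| := by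
  have h1 := abs_mul_le1 a u.hp
  have h2 := abs_mul_le1 b u.hq
  have h3 := abs_mul_le1 d u.hr
  have h4 := abs_mul_le1 f u.hs
  have := abs_add_le (a * u.p + b * u.q + d * u.r) (f * u.s)
  have := abs_add_le (a * u.p + b * u.q) (d * u.r)
  have := abs_add_le (a * u.p) (b * u.q)
  linarith

theorem AF.rad_eq (A : AF) : (A.rad : ℝ) = |(A.a : ℝ)| + |(A.b : ℝ)| + |(A.d : ℝ)| + |(A.f : ℝ)| + A.e := by
  simp only [AF.rad, nadd, ab_eq]

theorem AF.mem.rad {u : Nz} {A : AF} {x : ℝ} (h : A.mem u x) : |x * S - A.c| ≤ A.rad := by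
  have h1 := lin4 u A.a A.b A.d A.f
  have h2 := abs_add_le (x * S - (A.c + A.ln u)) (A.ln u)
  have e : x * S - (A.c + A.ln u) + A.ln u = x * S - A.c := by ring
  rw [e] at h2
  rw [AF.rad_eq]; unfold AF.mem at h; unfold AF.ln at *; linarith

/-- rounding the four coefficients costs at most `4` -/
theorem mem_of_round {u : Nz} {c a b d f : ℤ} {e : ℕ} {x a' b' d' f' δ : ℝ}
    (ha : |(a : ℝ) - a'| ≤ 1) (hb : |(b : ℝ) - b'| ≤ 1) (hd : |(d : ℝ) - d'| ≤ 1) (hf : |(f : ℝ) - f'| ≤ 1)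
    (h : |x * S - (c + (a' * u.p + b' * u.q + d' * u.r + f' * u.s))| ≤ δ) (he : δ + 4 ≤ e) :
    AF.mem u ⟨c, a, b, d, f, e⟩ x := by
  unfold AF.mem AF.ln
  have h1 := lin4 u (a - a') (b - b') (d - d') (f - f')
  have h2 := abs_sub (x * S - (c + (a' * u.p + b' * u.q + d' * u.r + f' * u.s)))
    ((a - a') * u.p + (b - b') * u.q + (d - d') * u.r + (f - f') * u.s)
  have e1 : x * S - (c + (a' * u.p + b' * u.q + d' * u.r + f' * u.s)) -
      ((a - a') * u.p + (b - b') * u.q + (d - d') * u.r + (f - f') * u.s) =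
      x * S - (c + (a * u.p + b * u.q + d * u.r + f * u.s)) := by ring
  rw [e1] at h2
  simp only
  linarith

/-- what a continuation-style operation delivers -/
def Out (u : Nz) (x : ℝ) (k : AF → Bool) : Prop := ∃ C : AF, C.mem u x ∧ k C = true

variable {u : Nz} {A B : AF} {x y : ℝ} {k : AF → Bool}

theorem addK_out (hA : A.mem u x) (hB : B.mem u y) (h : addK A B k = true) : Out u (x + y) k := by
  rw [addK, mk_eq] at h
  refine ⟨_, ?_, h⟩
  unfold AF.mem AF.ln at *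
  simp only [iadd, nadd]
  have := abs_add_le (x * S - (A.c + (A.a * u.p + A.b * u.q + A.d * u.r + A.f * u.s)))
    (y * S - (B.c + (B.a * u.p + B.b * u.q + B.d * u.r + B.f * u.s)))
  refine le_trans (le_of_eq ?_) (this.trans (add_le_add hA hB))
  congr 1; ring

theorem subK_out (hA : A.mem u x) (hB : B.mem u y) (h : subK A B k = true) : Out u (x - y) k := by
  rw [subK, mk_eq] at h
  refine ⟨_, ?_, h⟩
  unfold AF.mem AF.ln at *
  simp only [isub, nadd]
  have := abs_sub (x * S - (A.c + (A.a * u.p + A.b * u.q + A.d * u.r + A.f * u.s)))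
    (y * S - (B.c + (B.a * u.p + B.b * u.q + B.d * u.r + B.f * u.s)))
  refine le_trans (le_of_eq ?_) (this.trans (add_le_add hA hB))
  congr 1; ring

theorem negK_mem (hA : A.mem u x) :
    AF.mem u ⟨Int.neg A.c, Int.neg A.a, Int.neg A.b, Int.neg A.d, Int.neg A.f, A.e⟩ (-x) := by
  unfold AF.mem AF.ln at *
  simp only [ineg]
  rw [← abs_neg]
  refine le_trans (le_of_eq ?_) hA
  congr 1; ring

theorem negK_out (hA : A.mem u x) (h : negK A k = true) : Out u (-x) k := by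
  rw [negK, mk_eq] at h
  exact ⟨_, negK_mem hA, h⟩

theorem mulK_out (hA : A.mem u x) (hB : B.mem u y) (h : mulK A B k = true) : Out u (x * y) k := by
  rw [mulK, mk_eq] at h
  refine ⟨_, ?_, h⟩
  have hS := S_pos
  have rA := hA.rad
  have rB := hB.rad
  refine mem_of_round (sh_abs _) (sh_abs _) (sh_abs _) (sh_abs _)
    (δ := 1 + (|(A.c : ℝ)| * B.e + |(B.c : ℝ)| * A.e + (A.rad : ℝ) * B.rad) / S) ?_ ?_
  · simp only [iadd, imul]
    have h0 := sh_abs (Int.mul A.c B.c)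
    rw [imul] at h0
    unfold AF.mem AF.ln at hA hB
    set ε1 := x * S - (A.c + (A.a * u.p + A.b * u.q + A.d * u.r + A.f * u.s)) with h1
    set ε2 := y * S - (B.c + (B.a * u.p + B.b * u.q + B.d * u.r + B.f * u.s)) with h2
    have e : x * y * S - ((sh (Int.mul A.c B.c) : ℤ) + ((A.c * B.a + B.c * A.a) / S * u.p +
        (A.c * B.b + B.c * A.b) / S * u.q + (A.c * B.d + B.c * A.d) / S * u.r +
        (A.c * B.f + B.c * A.f) / S * u.s)) =
        -(((sh (Int.mul A.c B.c) : ℤ) : ℝ) - A.c * B.c / S) +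
          (A.c * ε2 + B.c * ε1 + (x * S - A.c) * (y * S - B.c)) / S := by
      rw [h1, h2]; field_simp; ring
    rw [e]
    refine (abs_add_le _ _).trans (add_le_add (by rwa [abs_neg]) ?_)
    rw [abs_div, abs_of_pos hS]
    gcongr
    refine (abs_add_le _ _).trans (add_le_add ((abs_add_le _ _).trans (add_le_add ?_ ?_)) ?_)
    · rw [abs_mul]; gcongr
    · rw [abs_mul]; gcongr
    · rw [abs_mul]; gcongr
  · have := le_shr (Nat.add (Nat.add (Nat.mul (ab A.c) B.e) (Nat.mul (ab B.c) A.e)) (Nat.mul A.rad B.rad)) 40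
    simp only [nadd, nmul, ab_eq] at this ⊢
    rw [S_val]; push_cast; linarith

theorem smK_out {n : ℤ} {d : ℕ} (hA : A.mem u x) (h : smK n d A k = true) :
    Out u ((n : ℝ) / (d + 1) * x) k := by
  rw [smK, mk_eq] at h
  refine ⟨_, ?_, h⟩
  have hd : (0 : ℝ) < d + 1 := by positivity
  refine mem_of_round (dv_abs _ _) (dv_abs _ _) (dv_abs _ _) (dv_abs _ _)
    (δ := 1 + |(n : ℝ)| * A.e / (d + 1)) ?_ ?_
  · simp only [imul]
    have h0 := dv_abs (Int.mul n A.c) d
    rw [imul] at h0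
    unfold AF.mem AF.ln at hA
    set ε1 := x * S - (A.c + (A.a * u.p + A.b * u.q + A.d * u.r + A.f * u.s)) with h1
    have e : (n : ℝ) / (d + 1) * x * S - ((dv (Int.mul n A.c) d : ℤ) + (n * A.a / (d + 1) * u.p +
        n * A.b / (d + 1) * u.q + n * A.d / (d + 1) * u.r + n * A.f / (d + 1) * u.s)) =
        -(((dv (Int.mul n A.c) d : ℤ) : ℝ) - n * A.c / (d + 1)) + n * ε1 / (d + 1) := by
      rw [h1]; field_simp; ring
    rw [e]
    refine (abs_add_le _ _).trans (add_le_add (by rwa [abs_neg]) ?_)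
    rw [abs_div, abs_of_pos hd, abs_mul]
    gcongr
  · have := le_ndiv (Nat.mul (ab n) A.e) (Nat.succ d) (Nat.succ_pos d)
    simp only [nadd, nmul, ab_eq, nsucc] at this ⊢
    push_cast; linarith

theorem linK_out {al V : ℤ} {E : ℕ} (hA : A.mem u x) (h : linK A al V E k = true)
    (hy : |y * S - (V + al * (x * S - A.c) / S)| ≤ E + 0) : Out u y k := by
  rw [linK, frI_eq, mk_eq] at h
  refine ⟨_, ?_, h⟩
  have hS := S_pos
  refine mem_of_round (sh_abs _) (sh_abs _) (sh_abs _) (sh_abs _)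
    (δ := E + |(al : ℝ)| * A.e / S) ?_ ?_
  · simp only [imul]
    unfold AF.mem AF.ln at hA
    set ε1 := x * S - (A.c + (A.a * u.p + A.b * u.q + A.d * u.r + A.f * u.s)) with h1
    have e : y * S - (V + (al * A.a / S * u.p + al * A.b / S * u.q + al * A.d / S * u.r +
        al * A.f / S * u.s)) = (y * S - (V + al * (x * S - A.c) / S)) + al * ε1 / S := by
      rw [h1]; field_simp; ring
    rw [e]
    refine (abs_add_le _ _).trans (add_le_add (by simpa using hy) ?_)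
    rw [abs_div, abs_of_pos hS, abs_mul]
    gcongr
  · have := le_shr (Nat.mul (ab al) A.e) 40
    simp only [nadd, nmul, ab_eq] at this ⊢
    rw [S_val]; push_cast; linarith

theorem sqK_out (hA : A.mem u x) (h : sqK A k = true) : Out u (x ^ 2) k := by
  rw [sqK, frN_eq, frN_eq] at h
  refine linK_out hA h ?_
  have hS := S_pos
  have rA := hA.rad
  have h0 := sh_spec (Int.mul A.c A.c)
  have h1 := shr_le (Nat.mul A.rad A.rad) 41
  have h2 := le_shr (Nat.mul A.rad A.rad) 41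
  simp only [iadd, imul, nadd, nmul, iofNat] at *
  set t := x * S - A.c with ht
  have e : x ^ 2 * S - (((sh (Int.mul A.c A.c) : ℤ) : ℝ) + (Nat.shiftRight (Nat.mul A.rad A.rad) 41 : ℕ) +
      (A.c + A.c) * t / S) = (A.c * A.c / S - (sh (Int.mul A.c A.c) : ℤ)) + t ^ 2 / S -
        (Nat.shiftRight (Nat.mul A.rad A.rad) 41 : ℕ) := by
    rw [ht]; field_simp; ring
  rw [e]
  have ht2 : t ^ 2 ≤ (A.rad : ℝ) * A.rad := by
    rw [← sq_abs, sq]; exact mul_self_le_mul_self (abs_nonneg _) rA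
  have h3 : t ^ 2 / S ≤ 2 * ((A.rad : ℝ) * A.rad / 2 ^ 41) := by
    rw [S_val]; rw [div_le_iff₀ (by positivity)]; linarith
  have h4 : 0 ≤ t ^ 2 / S := by positivity
  rw [abs_le]; push_cast
  constructor <;> linarith [h0.1, h0.2]

theorem sgK_cases {kp kn : Bool} {ku : ℕ → Bool} (hA : A.mem u x) (h : sgK A kp kn ku = true) :
    (0 ≤ x ∧ kp = true) ∨ (x ≤ 0 ∧ kn = true) ∨ (|(A.c : ℝ)| < A.rad ∧ ku A.rad = true) := by
  rw [sgK, frN_eq] at h
  have rA := abs_le.1 hA.rad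
  have hS := S_pos
  cases hc : A.c with
  | ofNat n =>
    rw [hc] at h rA
    rw [iofNat] at rA
    cases hb : Nat.ble A.rad n with
    | true =>
      simp only [hb] at h
      have := ble_le hb
      refine Or.inl ⟨?_, h⟩
      by_contra hx
      have : x * S < 0 := mul_neg_of_neg_of_pos (not_le.1 hx) hS
      linarith [rA.1]
    | false =>
      simp only [hb] at h
      refine Or.inr (Or.inr ⟨?_, h⟩)
      have : n < A.rad := Nat.lt_of_not_le fun h' => by simp [Nat.ble_eq_true_of_le h'] at hb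
      rw [iofNat, abs_of_nonneg (by positivity)]; exact_mod_cast this
  | negSucc n =>
    rw [hc] at h rA
    rw [inegSucc] at rA
    cases hb : Nat.ble A.rad (Nat.succ n) with
    | true =>
      simp only [hb] at h
      have := ble_le hb
      rw [nsucc] at this
      refine Or.inr (Or.inl ⟨?_, h⟩)
      by_contra hx
      have : 0 < x * S := mul_pos (not_le.1 hx) hS
      linarith [rA.2]
    | false =>
      simp only [hb] at h
      refine Or.inr (Or.inr ⟨?_, h⟩)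
      have : Nat.succ n < A.rad := Nat.lt_of_not_le fun h' => by simp [Nat.ble_eq_true_of_le h'] at hb
      rw [inegSucc, abs_neg, abs_of_nonneg (by positivity)]; exact_mod_cast this

theorem toNat_cast {z : ℤ} (h : (0 : ℝ) ≤ z) : ((Int.toNat z : ℕ) : ℝ) = z := by
  have : (0 : ℤ) ≤ z := by exact_mod_cast h
  exact_mod_cast congrArg (Int.cast : ℤ → ℝ) (Int.toNat_of_nonneg this)

theorem posK_out (hA : A.mem u x) (hc : |(A.c : ℝ)| < A.rad) (h : posK A A.rad k = true) :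
    Out u (max x 0) k := by
  rw [posK, frN_eq, frN_eq, frN_eq, frN_eq] at h
  refine linK_out hA h ?_
  have hS := S_pos
  have rA := abs_le.1 hA.rad
  have hc' := abs_lt.1 hc
  have hr : (0 : ℝ) < A.rad := lt_of_le_of_lt (abs_nonneg _) hc
  have hr' : 0 < A.rad := by exact_mod_cast hr
  set hi := Int.toNat (Int.add A.c (Int.ofNat A.rad)) with hhi
  set lo := Int.toNat (Int.sub (Int.ofNat A.rad) A.c) with hlo
  have ehi : (hi : ℝ) = A.c + A.rad := by
    rw [hhi, toNat_cast (by rw [iadd, iofNat]; linarith), iadd, iofNat]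
  have elo : (lo : ℝ) = A.rad - A.c := by
    rw [hlo, toNat_cast (by rw [isub, iofNat]; linarith), isub, iofNat]
  set al := Nat.div (Nat.mul hi S) (Nat.add A.rad A.rad) with hal
  have a1 := ndiv_le (Nat.mul hi S) (Nat.add A.rad A.rad)
  have a2 := le_ndiv (Nat.mul hi S) (Nat.add A.rad A.rad) (Nat.add_pos_left hr' _)
  have q1 := le_ndiv (Nat.mul hi lo) (Nat.mul 4 A.rad) (Nat.mul_pos (by norm_num) hr')
  have q2 := le_shr hi 40
  have h0 := sh_spec (Int.mul (Int.ofNat al) A.c)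
  rw [← hal] at a1 a2
  simp only [iadd, imul, nadd, nmul, iofNat, nsucc] at *
  set q1v := ((Nat.div (Nat.mul hi lo) (Nat.mul 4 A.rad) : ℕ) : ℝ)
  set q2v := ((Nat.shiftRight hi 40 : ℕ) : ℝ)
  set t := x * S with ht
  rw [← S_val] at q2
  have hal0 : (0 : ℝ) ≤ al := by positivity
  have hhi0 : (0 : ℝ) ≤ hi := by positivity
  have hlo0 : (0 : ℝ) ≤ lo := by positivity
  have e : max x 0 * S - (((sh (Int.mul (Int.ofNat al) A.c) : ℤ) : ℝ) + (q1v + q2v + 1 + 1) +
      al * (t - A.c) / S) = (max t 0 - al / S * t) + (al * A.c / S - (sh (Int.mul (Int.ofNat al) A.c) : ℤ)) -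
        (q1v + q2v + 2) := by
    have : max x 0 * S = max t 0 := by rw [ht, max_mul_of_nonneg _ _ hS.le, zero_mul]
    rw [this]; field_simp; ring
  rw [e]
  have b1 : (al : ℝ) / S ≤ hi / (2 * A.rad) := by
    rw [div_le_div_iff₀ hS (by positivity)]
    rw [le_div_iff₀ (by positivity)] at a1; linarith
  have b2 : (hi : ℝ) / (2 * A.rad) - 1 / S ≤ al / S := by
    have : (hi : ℝ) * S / (A.rad + A.rad) / S = hi / (2 * A.rad) := by field_simp; ring
    rw [← this, ← sub_div]; gcongr; linarith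
  have b3 : (hi : ℝ) / (2 * A.rad) ≤ 1 := by rw [div_le_one (by positivity)]; linarith
  have b4 : 1 - (hi : ℝ) / (2 * A.rad) = lo / (2 * A.rad) := by rw [ehi, elo]; field_simp; ring
  have b5 : (hi : ℝ) * lo / (2 * A.rad) ≤ 2 * (q1v + 1) := by
    have : (hi : ℝ) * lo / (2 * A.rad) = 2 * (hi * lo / (((4 : ℕ) : ℝ) * A.rad)) := by
      push_cast; field_simp; ring
    rw [this]; linarith
  have hq2 : 0 ≤ q2v := by positivity
  have b0 : (0 : ℝ) ≤ al / S := by positivity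
  have key : 0 ≤ max t 0 - al / S * t ∧ max t 0 - al / S * t ≤ 2 * (q1v + 1) + (q2v + 1) := by
    rcases le_total t 0 with h1 | h1
    · rw [max_eq_right h1]
      refine ⟨by nlinarith, ?_⟩
      have : al / S * (-t) ≤ hi / (2 * A.rad) * lo := by
        apply mul_le_mul b1 (by linarith) (by linarith) (by positivity)
      have e2 : (hi : ℝ) / (2 * A.rad) * lo = hi * lo / (2 * A.rad) := by ring
      nlinarith
    · rw [max_eq_left h1]
      refine ⟨by nlinarith, ?_⟩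
      have : (1 - al / S) * t ≤ (lo / (2 * A.rad) + 1 / S) * hi := by
        apply mul_le_mul (by linarith) (by linarith) h1 (by positivity)
      have e2 : ((lo : ℝ) / (2 * A.rad) + 1 / S) * hi = hi * lo / (2 * A.rad) + hi / S := by ring
      nlinarith
  rw [abs_le]; push_cast
  constructor <;> linarith [h0.1, h0.2, key.1, key.2]

theorem maxK_out (hA : A.mem u x) (hB : B.mem u y) (h : maxK A B k = true) : Out u (max x y) k := by
  obtain ⟨D, hD, h⟩ := subK_out hA hB h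
  rcases sgK_cases hD h with ⟨h1, h⟩ | ⟨h1, h⟩ | ⟨h1, h⟩
  · rw [max_eq_left (by linarith)]; exact ⟨A, hA, h⟩
  · rw [max_eq_right (by linarith)]; exact ⟨B, hB, h⟩
  · obtain ⟨C, hC, h⟩ := posK_out hD h1 h
    have : max x y = y + max (x - y) 0 := by
      rcases le_total x y with h | h
      · rw [max_eq_right h, max_eq_right (by linarith)]; ring
      · rw [max_eq_left h, max_eq_left (by linarith)]; ring
    rw [this]; exact addK_out hB hC h

theorem minK_out (hA : A.mem u x) (hB : B.mem u y) (h : minK A B k = true) : Out u (min x y) k := by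
  obtain ⟨D, hD, h⟩ := subK_out hA hB h
  rcases sgK_cases hD h with ⟨h1, h⟩ | ⟨h1, h⟩ | ⟨h1, h⟩
  · rw [min_eq_right (by linarith)]; exact ⟨B, hB, h⟩
  · rw [min_eq_left (by linarith)]; exact ⟨A, hA, h⟩
  · obtain ⟨C, hC, h⟩ := posK_out hD h1 h
    have : min x y = x - max (x - y) 0 := by
      rcases le_total x y with h | h
      · rw [min_eq_left h, max_eq_right (by linarith)]; ring
      · rw [min_eq_right h, max_eq_left (by linarith)]; ring
    rw [this]; exact subK_out hA hC h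

theorem maxS_out (hA : A.mem u x) (hB : B.mem u y) (h : maxS A B k = true) : Out u (max x y) k := by
  obtain ⟨D, hD, h⟩ := subK_out hA hB h
  rcases sgK_cases hD h with ⟨h1, h⟩ | ⟨h1, h⟩ | ⟨-, h⟩
  · rw [max_eq_left (by linarith)]; exact ⟨A, hA, h⟩
  · rw [max_eq_right (by linarith)]; exact ⟨B, hB, h⟩
  · obtain ⟨h1, h2⟩ := brec h
    rcases le_total x y with h | h
    · rw [max_eq_right h]; exact ⟨B, hB, h2⟩
    · rw [max_eq_left h]; exact ⟨A, hA, h1⟩

theorem minS_out (hA : A.mem u x) (hB : B.mem u y) (h : minS A B k = true) : Out u (min x y) k := by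
  obtain ⟨D, hD, h⟩ := subK_out hA hB h
  rcases sgK_cases hD h with ⟨h1, h⟩ | ⟨h1, h⟩ | ⟨-, h⟩
  · rw [min_eq_right (by linarith)]; exact ⟨B, hB, h⟩
  · rw [min_eq_left (by linarith)]; exact ⟨A, hA, h⟩
  · obtain ⟨h1, h2⟩ := brec h
    rcases le_total x y with h | h
    · rw [min_eq_left h]; exact ⟨A, hA, h1⟩
    · rw [min_eq_right h]; exact ⟨B, hB, h2⟩

end Crest.Agent.Lib.IBox
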