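import Crest.Agent.Lib.IBoxA

/-! # Soundness of the box prover: `exp`, `log`, inverse -/

set_option autoImplicit false

namespace Crest.Agent.Lib.IBox

theorem eL_le {z p : ℕ} (j : ℕ) {X q : ℝ} (hz : (z : ℝ) ≤ X * S) (hp : (p : ℝ) ≤ q * S) :
    ((eL z j p : ℕ) : ℝ) ≤ (1 + X * q / j) * S := by
  have hS := S_pos
  have h1 := ndiv_le (Nat.shiftRight (Nat.mul z p) 40) j
  have h2 := shr_le (Nat.mul z p) 40
  rw [nmul, ← S_val] at h2
  have h3 : (z : ℝ) * p / S ≤ X * q * S := by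
    rw [div_le_iff₀ hS]
    have : (z : ℝ) * p ≤ (X * S) * (q * S) :=
      mul_le_mul hz hp (by positivity) (le_trans (by positivity) hz)
    linarith
  have h4 : ((Nat.shiftRight (Nat.mul z p) 40 : ℕ) : ℝ) / j ≤ X * q * S / j := by gcongr; linarith
  rw [eL, nadd]
  have : (1 + X * q / j) * S = S + X * q * S / j := by ring
  linarith

theorem le_eU {z p : ℕ} (j : ℕ) (hj : 0 < j) {X q : ℝ} (hX : 0 ≤ X) (hq : 0 ≤ q) (hz : X * S ≤ (z : ℝ))
    (hp : q * S ≤ (p : ℝ)) : (1 + X * q / j) * S ≤ ((eU z j p : ℕ) : ℝ) := by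
  have hS := S_pos
  have h1 := le_ndiv (Nat.shiftRight (Nat.mul z p) 40) j hj
  have h2 := le_shr (Nat.mul z p) 40
  rw [nmul, ← S_val] at h2
  have hj' : (1 : ℝ) ≤ j := by exact_mod_cast hj
  have h3 : X * q * S ≤ (z : ℝ) * p / S := by
    rw [le_div_iff₀ hS]
    have : (X * S) * (q * S) ≤ (z : ℝ) * p := mul_le_mul hz hp (by positivity) (by positivity)
    linarith
  have h4 : X * q * S / j ≤ (((Nat.shiftRight (Nat.mul z p) 40 : ℕ) : ℝ) + 1) / j := by gcongr; linarith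
  have h5 : (1 : ℝ) / j ≤ 1 := by rw [div_le_one (by linarith)]; exact hj'
  rw [add_div] at h4
  rw [eU, nadd]
  have e1 : (1 + X * q / j) * S = S + X * q * S / j := by ring
  have e2 : ((1099511627778 : ℕ) : ℝ) = S + 2 := by rw [S_val]; norm_num
  rw [e1, e2]; linarith

theorem sL_eq (p : ℕ) (k : ℕ → Bool) : sL p k = k (Nat.shiftRight (Nat.mul p p) 40) := frN_eq _ _
theorem sU_eq (p : ℕ) (k : ℕ → Bool) : sU p k = k (Nat.succ (Nat.shiftRight (Nat.mul p p) 40)) := frN_eq _ _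

theorem sL_le {p : ℕ} {X : ℝ} (hp : (p : ℝ) ≤ Real.exp X * S) :
    ((Nat.shiftRight (Nat.mul p p) 40 : ℕ) : ℝ) ≤ Real.exp (2 * X) * S := by
  have hS := S_pos
  have h2 := shr_le (Nat.mul p p) 40
  rw [nmul, ← S_val] at h2
  refine h2.trans ?_
  rw [div_le_iff₀ hS, two_mul, Real.exp_add]
  have := mul_self_le_mul_self (by positivity) hp
  linarith

theorem le_sU {p : ℕ} {X : ℝ} (hp : Real.exp X * S ≤ (p : ℝ)) :
    Real.exp (2 * X) * S ≤ ((Nat.succ (Nat.shiftRight (Nat.mul p p) 40) : ℕ) : ℝ) := by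
  have hS := S_pos
  have h2 := le_shr (Nat.mul p p) 40
  rw [nmul, ← S_val] at h2
  rw [nsucc]
  refine le_trans ?_ h2
  rw [le_div_iff₀ hS, two_mul, Real.exp_add]
  have := mul_self_le_mul_self (by positivity) hp
  linarith

theorem expN_out {n : ℕ} {k : ℕ → ℕ → Bool} (hn : (n : ℝ) ≤ 8 * S) (h : expN n k = true) :
    ∃ L H : ℕ, (L : ℝ) ≤ Real.exp (n / S) * S ∧ Real.exp (n / S) * S ≤ H ∧ 0 < L ∧ k L H = true := by
  simp only [expN, frN_eq, sL_eq, sU_eq] at h
  have hS := S_pos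
  set X : ℝ := n / S / 32 with hX
  have hX0 : 0 ≤ X := by positivity
  have hX1 : X ≤ 1 := by
    rw [hX, div_le_one (by norm_num), div_le_iff₀ hS]; linarith
  have hz : ((Nat.shiftRight n 5 : ℕ) : ℝ) ≤ X * S := by
    refine (shr_le n 5).trans (le_of_eq ?_); rw [hX]; field_simp; norm_num
  have hw : X * S ≤ ((Nat.succ (Nat.shiftRight n 5) : ℕ) : ℝ) := by
    rw [nsucc]; refine le_trans (le_of_eq ?_) (le_shr n 5); rw [hX]; field_simp; norm_num
  have e : (n : ℝ) / S = 2 * (2 * (2 * (2 * (2 * X)))) := by rw [hX]; ring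
  refine ⟨_, _, ?_, ?_, ?_, h⟩
  · rw [e]
    refine sL_le (sL_le (sL_le (sL_le (sL_le ?_))))
    refine (eL_le 1 hz (eL_le 2 hz (eL_le 3 hz (eL_le 4 hz (eL_le 5 hz (eL_le 6 hz (eL_le 7 hz
      (eL_le 8 hz (q := 1) (by simp))))))))).trans ?_
    gcongr
    refine le_trans (le_of_eq ?_) (Real.sum_le_exp_of_nonneg hX0 9)
    simp only [Finset.sum_range_succ, Finset.sum_range_zero, Nat.factorial]
    push_cast; ring
  · rw [e]
    refine le_sU (le_sU (le_sU (le_sU (le_sU ?_))))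
    refine le_trans ?_ (le_eU 1 (by norm_num) hX0 (by positivity) hw (le_eU 2 (by norm_num) hX0 (by positivity) hw
      (le_eU 3 (by norm_num) hX0 (by positivity) hw (le_eU 4 (by norm_num) hX0 (by positivity) hw
      (le_eU 5 (by norm_num) hX0 (by positivity) hw (le_eU 6 (by norm_num) hX0 (by positivity) hw
      (le_eU 7 (by norm_num) hX0 (by positivity) hw (le_eU 8 (by norm_num) hX0 (by positivity) hw
      (le_eU 9 (by norm_num) hX0 (q := 2) (by positivity) hw (by rw [S_val]; norm_num))))))))))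
    gcongr
    refine (Real.exp_bound' hX0 hX1 (n := 9) (by norm_num)).trans ?_
    simp only [Finset.sum_range_succ, Finset.sum_range_zero, Nat.factorial]
    push_cast
    have : 0 ≤ X ^ 9 := by positivity
    ring_nf
    linarith
  · have g : ∀ p : ℕ, S ≤ p → S ≤ Nat.shiftRight (Nat.mul p p) 40 := by
      intro p hp
      rw [shr_eq]
      refine (Nat.le_div_iff_mul_le (by norm_num)).2 ?_
      exact Nat.mul_le_mul hp hp
    refine lt_of_lt_of_le (by unfold S; norm_num) (g _ (g _ (g _ (g _ (g _ ?_)))))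
    exact Nat.le_add_right _ _

theorem expI_out {m : ℤ} {k : ℕ → ℕ → Bool} (h : expI m k = true) :
    ∃ L H : ℕ, (L : ℝ) ≤ Real.exp (m / S) * S ∧ Real.exp (m / S) * S ≤ H ∧ k L H = true := by
  have hS := S_pos
  cases m with
  | ofNat n =>
    obtain ⟨h1, h2⟩ := brec h
    obtain ⟨L, H, a, b, -, c⟩ := expN_out (by have := ble_le h1; rw [S_val]; push_cast at this; linarith) h2
    exact ⟨L, H, by rwa [iofNat], by rwa [iofNat], c⟩
  | negSucc n =>
    obtain ⟨h1, h2⟩ := brec h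
    obtain ⟨L, H, a, b, hL, c⟩ := expN_out
      (by have := ble_le h1; rw [S_val, nsucc]; push_cast at this; linarith) h2
    rw [frN_eq, frN_eq] at c
    have e : Real.exp ((Int.negSucc n : ℤ) / S) = (Real.exp ((Nat.succ n : ℕ) / S))⁻¹ := by
      rw [← Real.exp_neg, inegSucc, nsucc, neg_div]
    have eS : ((1208925819614629174706176 : ℕ) : ℝ) = S * S := by rw [S_val]; norm_num
    have hE := Real.exp_pos ((Nat.succ n : ℕ) / (S : ℝ))
    have hL' : (0 : ℝ) < L := by exact_mod_cast hL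
    refine ⟨_, _, ?_, ?_, c⟩
    · rw [e]
      refine (ndiv_le _ _).trans ?_
      rw [eS, div_le_iff₀ (lt_of_lt_of_le (by positivity) b)]
      calc (S : ℝ) * S = (Real.exp ((Nat.succ n : ℕ) / S))⁻¹ * S * (Real.exp ((Nat.succ n : ℕ) / S) * S) := by
            field_simp
        _ ≤ _ := by gcongr
    · rw [e, nsucc (Nat.div _ _)]
      refine le_trans ?_ (le_ndiv _ _ hL)
      rw [eS, le_div_iff₀ hL']
      calc (Real.exp ((Nat.succ n : ℕ) / S))⁻¹ * S * L
          ≤ (Real.exp ((Nat.succ n : ℕ) / S))⁻¹ * S * (Real.exp ((Nat.succ n : ℕ) / S) * S) := by gcongr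
        _ = S * S := by field_simp

variable {u : Nz} {A : AF} {x : ℝ} {k : AF → Bool}

theorem exp_rem {t ρ : ℝ} (ht : |t| ≤ ρ) (hρ : ρ ≤ 1) :
    0 ≤ Real.exp t - 1 - t ∧ Real.exp t - 1 - t ≤ ρ ^ 2 / 2 + ρ ^ 3 / 4 := by
  refine ⟨by linarith [Real.add_one_le_exp t], ?_⟩
  have h := Real.exp_bound (ht.trans hρ) (n := 3) (by norm_num)
  simp only [Finset.sum_range_succ, Finset.sum_range_zero, Nat.factorial] at h
  have h1 := (abs_le.1 h).2
  have h2 : |t| ^ 3 ≤ ρ ^ 3 := pow_le_pow_left₀ (abs_nonneg _) ht 3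
  have h3 : t ^ 2 ≤ ρ ^ 2 := by rw [← sq_abs]; exact pow_le_pow_left₀ (abs_nonneg _) ht 2
  have h4 : 0 ≤ |t| ^ 3 := by positivity
  push_cast at h1
  norm_num at h1
  linarith

theorem expK_out (hA : A.mem u x) (h : expK A k = true) : Out u (Real.exp x) k := by
  rw [expK, frN_eq] at h
  obtain ⟨h1, h⟩ := brec h
  obtain ⟨L, H, hL, hH, h⟩ := expI_out h
  rw [frN_eq, frN_eq] at h
  refine linK_out hA h ?_
  have hS := S_pos
  have rA := hA.rad
  have hr := ble_le h1
  set t := (x * S - A.c) / S with ht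
  have ht1 : |t| ≤ A.rad / S := by rw [ht, abs_div, abs_of_pos hS]; gcongr
  have hρ : (A.rad : ℝ) / S ≤ 1 := by rwa [div_le_one hS]
  obtain ⟨θ1, θ2⟩ := exp_rem ht1 hρ
  have ex : Real.exp x = Real.exp (A.c / S) * Real.exp t := by
    rw [← Real.exp_add, ht]; congr 1; field_simp; ring
  set Q := Nat.add (Nat.add (Nat.shiftRight (Nat.mul A.rad A.rad) 41)
    (Nat.shiftRight (Nat.mul (Nat.mul A.rad A.rad) A.rad) 82)) 2 with hQ
  have hQ1 : ((A.rad : ℝ) / S) ^ 2 / 2 + ((A.rad : ℝ) / S) ^ 3 / 4 ≤ Q / S := by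
    have a1 := le_shr (Nat.mul A.rad A.rad) 41
    have a2 := le_shr (Nat.mul (Nat.mul A.rad A.rad) A.rad) 82
    rw [hQ]; simp only [nadd, nmul] at *
    rw [le_div_iff₀ hS, S_val]
    have e1 : (((A.rad : ℝ) / 2 ^ 40) ^ 2 / 2 + ((A.rad : ℝ) / 2 ^ 40) ^ 3 / 4) * 2 ^ 40 =
      (A.rad : ℝ) * A.rad / 2 ^ 41 + (A.rad : ℝ) * A.rad * A.rad / 2 ^ 82 := by ring
    rw [e1]; push_cast; linarith
  have q1 := shr_le (Nat.mul L Q) 41
  have q2 := le_shr (Nat.mul L Q) 41
  have hsub := nsub_ge H L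
  simp only [nadd, nmul, iofNat] at *
  set q := ((Nat.shiftRight (Nat.mul L Q) 41 : ℕ) : ℝ)
  set X := Real.exp (A.c / S) * S with hX
  have e : Real.exp x * S - (L + q + L * (x * S - A.c) / S) =
      (X - L) * Real.exp t + (L * (Real.exp t - 1 - t) - q) := by
    rw [ex, hX, mul_div_assoc, ← ht]; ring
  rw [e]
  have hexp : Real.exp t ≤ 3 := by
    have := Real.exp_le_exp.2 ((le_abs_self t).trans (ht1.trans hρ))
    linarith [Real.exp_one_lt_d9]
  have hE := Real.exp_pos t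
  have b1 : 0 ≤ (X - L) * Real.exp t := mul_nonneg (by linarith) hE.le
  have b2 : (X - L) * Real.exp t ≤ (Nat.sub H L : ℕ) * 3 :=
    mul_le_mul (by linarith) hexp hE.le (by positivity)
  have hL0 : (0 : ℝ) ≤ L := by positivity
  have b3 : 0 ≤ (L : ℝ) * (Real.exp t - 1 - t) := mul_nonneg hL0 θ1
  have b4 : (L : ℝ) * (Real.exp t - 1 - t) ≤ 2 * (L * Q / 2 ^ 41) := by
    have : (L : ℝ) * (Real.exp t - 1 - t) ≤ L * (Q / S) := by gcongr; linarith
    rw [S_val] at this; linarith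
  have hn : (0 : ℝ) ≤ (Nat.sub H L : ℕ) := by positivity
  rw [abs_le]; push_cast
  constructor <;> linarith

theorem lL_le {y p c : ℕ} {Y q C : ℝ} (hy : (y : ℝ) ≤ Y * S) (hp : (p : ℝ) ≤ q * S) (hc : (c : ℝ) ≤ C * S) :
    ((lL y c p : ℕ) : ℝ) ≤ (C + Y * q) * S := by
  have hS := S_pos
  have h2 := shr_le (Nat.mul y p) 40
  rw [nmul, ← S_val] at h2
  have h3 : (y : ℝ) * p / S ≤ Y * q * S := by
    rw [div_le_iff₀ hS]
    have : (y : ℝ) * p ≤ (Y * S) * (q * S) :=
      mul_le_mul hy hp (by positivity) (le_trans (by positivity) hy)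
    linarith
  rw [lL, nadd]; linarith

theorem le_lL {y p c : ℕ} {Y q C : ℝ} (hY : 0 ≤ Y) (hq : 0 ≤ q) (hy : Y * S ≤ (y : ℝ))
    (hp : q * S ≤ (p : ℝ)) (hc : C * S + 1 ≤ (c : ℝ)) : (C + Y * q) * S ≤ ((lL y c p : ℕ) : ℝ) := by
  have hS := S_pos
  have h2 := le_shr (Nat.mul y p) 40
  rw [nmul, ← S_val] at h2
  have h3 : Y * q * S ≤ (y : ℝ) * p / S := by
    rw [le_div_iff₀ hS]
    have : (Y * S) * (q * S) ≤ (y : ℝ) * p := mul_le_mul hy hp (by positivity) (by positivity)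
    linarith
  rw [lL, nadd]; linarith

theorem artanh_bounds {s : ℝ} (h0 : 0 ≤ s) (h1 : s ≤ 1 / 3) :
    2 * s * (1 + s ^ 2 * (1 / 3 + s ^ 2 * (1 / 5 + s ^ 2 * (1 / 7 + s ^ 2 * (1 / 9 + s ^ 2 * (1 / 11 +
      s ^ 2 * (1 / 13 + s ^ 2 * (1 / 15 + s ^ 2 * (1 / 17))))))))) ≤ Real.log (1 + s) - Real.log (1 - s) ∧
    Real.log (1 + s) - Real.log (1 - s) ≤
      2 * s * (1 + s ^ 2 * (1 / 3 + s ^ 2 * (1 / 5 + s ^ 2 * (1 / 7 + s ^ 2 * (1 / 9 + s ^ 2 * (1 / 11 +
      s ^ 2 * (1 / 13 + s ^ 2 * (1 / 15 + s ^ 2 * (6 / 85))))))))) := by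
  have hs : |s| < 1 := by rw [abs_of_nonneg h0]; linarith
  have H := Real.hasSum_log_sub_log_of_abs_lt_one hs
  constructor
  · refine le_trans (le_of_eq ?_) (sum_le_hasSum (Finset.range 9) (fun i _ => by positivity) H)
    simp only [Finset.sum_range_succ, Finset.sum_range_zero]
    push_cast; ring
  · have H2 := (hasSum_nat_add_iff' 8).2 H
    have hy : s ^ 2 < 1 := by nlinarith
    have G := (hasSum_geometric_of_lt_one (by positivity : 0 ≤ s ^ 2) hy).mul_left (2 / 17 * s ^ 17)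
    have := hasSum_le (fun i => ?_) H2 G
    · simp only [Finset.sum_range_succ, Finset.sum_range_zero] at this
      push_cast at this
      have hi : (1 - s ^ 2)⁻¹ ≤ 6 / 5 := by
        rw [inv_le_comm₀ (by linarith) (by norm_num)]; nlinarith
      have : 2 / 17 * s ^ 17 * (1 - s ^ 2)⁻¹ ≤ 2 / 17 * s ^ 17 * (6 / 5) := by gcongr
      nlinarith
    · have e : s ^ (2 * (i + 8) + 1) = s ^ 17 * (s ^ 2) ^ i := by ring
      rw [e]
      have : (1 : ℝ) / (2 * ((i + 8 : ℕ) : ℝ) + 1) ≤ 1 / 17 := by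
        apply one_div_le_one_div_of_le (by norm_num); push_cast
        have : (0 : ℝ) ≤ i := by positivity
        linarith
      have hp : 0 ≤ s ^ 17 * (s ^ 2) ^ i := by positivity
      nlinarith

theorem logN_out {m p : ℕ} {k : ℕ → ℕ → Bool} (hp : 0 < p) (h1 : p ≤ m) (h2 : (m : ℝ) ≤ p + p)
    (h : logN m p k = true) :
    ∃ L H : ℕ, (L : ℝ) ≤ Real.log (m / p) * S ∧ Real.log (m / p) * S ≤ H ∧ k L H = true := by
  simp only [logN, frN_eq] at h
  have hS := S_pos
  have hp' : (0 : ℝ) < p := by exact_mod_cast hp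
  have h1' : (p : ℝ) ≤ m := by exact_mod_cast h1
  set s : ℝ := (m - p) / (m + p) with hs
  have s0 : 0 ≤ s := div_nonneg (by linarith) (by linarith)
  have s1 : s ≤ 1 / 3 := by rw [hs, div_le_iff₀ (by linarith)]; linarith
  have el : Real.log (m / p) = Real.log (1 + s) - Real.log (1 - s) := by
    rw [← Real.log_div (by linarith) (by linarith)]; congr 1
    have : (m : ℝ) + p ≠ 0 := by linarith
    have e1 : 1 + s = 2 * m / (m + p) := by rw [hs]; field_simp; ring
    have e2 : 1 - s = 2 * p / (m + p) := by rw [hs]; field_simp; ring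
    rw [e1, e2]; field_simp
  obtain ⟨b1, b2⟩ := artanh_bounds s0 s1
  have esub : ((Nat.sub m p : ℕ) : ℝ) = m - p := Nat.cast_sub h1
  set z := Nat.div (Nat.mul (Nat.sub m p) S) (Nat.add m p) with hz
  have z1 : (z : ℝ) ≤ s * S := by
    refine (ndiv_le _ _).trans (le_of_eq ?_); rw [nmul, nadd, esub, hs]; ring
  have z2 : s * S ≤ ((Nat.succ z : ℕ) : ℝ) := by
    rw [nsucc]; refine le_trans (le_of_eq ?_) (le_ndiv _ _ (Nat.add_pos_right _ hp))
    rw [nmul, nadd, esub, hs]; ring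
  have y1 : ((Nat.shiftRight (Nat.mul z z) 40 : ℕ) : ℝ) ≤ s ^ 2 * S := by
    refine (shr_le _ _).trans ?_
    rw [nmul, ← S_val, div_le_iff₀ hS]
    have := mul_self_le_mul_self (by positivity) z1
    linarith
  have y2 : s ^ 2 * S ≤ ((Nat.succ (Nat.shiftRight (Nat.mul (Nat.succ z) (Nat.succ z)) 40) : ℕ) : ℝ) := by
    rw [nsucc]; refine le_trans ?_ (le_shr _ _)
    rw [nmul, ← S_val, le_div_iff₀ hS]
    have := mul_self_le_mul_self (by positivity) z2
    linarith
  have e39 : (2 : ℝ) ^ 39 = S / 2 := by rw [S_val]; norm_num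
  refine ⟨_, _, ?_, ?_, h⟩
  · refine (shr_le _ _).trans ?_
    have := lL_le y1 (lL_le y1 (lL_le y1 (lL_le y1 (lL_le y1 (lL_le y1 (lL_le y1 (lL_le y1
      (p := 64677154575) (q := 1 / 17) (by rw [S_val]; norm_num)
      (c := 73300775185) (C := 1 / 15) (by rw [S_val]; norm_num))
      (c := 84577817521) (C := 1 / 13) (by rw [S_val]; norm_num))
      (c := 99955602525) (C := 1 / 11) (by rw [S_val]; norm_num))
      (c := 122167958641) (C := 1 / 9) (by rw [S_val]; norm_num))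
      (c := 157073089682) (C := 1 / 7) (by rw [S_val]; norm_num))
      (c := 219902325555) (C := 1 / 5) (by rw [S_val]; norm_num))
      (c := 366503875925) (C := 1 / 3) (by rw [S_val]; norm_num))
      (c := 1099511627776) (C := 1) (by rw [S_val]; norm_num)
    rw [nmul, e39, div_le_iff₀ (by positivity), el]
    have h3 := mul_le_mul z1 this (by positivity) (by positivity)
    have h4 := mul_le_mul_of_nonneg_right b1 (by positivity : (0 : ℝ) ≤ S * (S / 2))
    linarith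
  · rw [nsucc]
    refine le_trans ?_ (le_shr _ _)
    have hY : 0 ≤ s ^ 2 := by positivity
    have := le_lL hY (by positivity) y2 (le_lL hY (by positivity) y2 (le_lL hY (by positivity) y2
      (le_lL hY (by positivity) y2 (le_lL hY (by positivity) y2 (le_lL hY (by positivity) y2
      (le_lL hY (by positivity) y2 (le_lL hY (by positivity) y2
      (p := 77612585491) (q := 6 / 85) (by rw [S_val]; norm_num)
      (c := 73300775187) (C := 1 / 15) (by rw [S_val]; norm_num))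
      (c := 84577817523) (C := 1 / 13) (by rw [S_val]; norm_num))
      (c := 99955602527) (C := 1 / 11) (by rw [S_val]; norm_num))
      (c := 122167958643) (C := 1 / 9) (by rw [S_val]; norm_num))
      (c := 157073089684) (C := 1 / 7) (by rw [S_val]; norm_num))
      (c := 219902325557) (C := 1 / 5) (by rw [S_val]; norm_num))
      (c := 366503875927) (C := 1 / 3) (by rw [S_val]; norm_num))
      (c := 1099511627777) (C := 1) (by rw [S_val]; norm_num)
    rw [nmul, e39, le_div_iff₀ (by positivity), el]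
    have h3 := mul_le_mul z2 this (by positivity) (by positivity)
    have h4 := mul_le_mul_of_nonneg_right b2 (by positivity : (0 : ℝ) ≤ S * (S / 2))
    linarith

theorem log_rem {t ρ : ℝ} (ht : |t| ≤ ρ) (hρ : |t| ≤ 1 / 2) :
    0 ≤ t - Real.log (1 + t) ∧ t - Real.log (1 + t) ≤ ρ ^ 2 / 2 + 2 * ρ ^ 3 := by
  have ht' := abs_le.1 hρ
  refine ⟨by linarith [Real.log_le_sub_one_of_pos (by linarith : 0 < 1 + t)], ?_⟩
  have h := Real.abs_log_sub_add_sum_range_le (x := -t) (by rw [abs_neg]; linarith) 2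
  simp only [Finset.sum_range_succ, Finset.sum_range_zero, abs_neg, sub_neg_eq_add] at h
  have h1 := (abs_le.1 h).1
  have h2 : |t| ^ 3 ≤ ρ ^ 3 := pow_le_pow_left₀ (abs_nonneg _) ht 3
  have h3 : t ^ 2 ≤ ρ ^ 2 := by rw [← sq_abs]; exact pow_le_pow_left₀ (abs_nonneg _) ht 2
  have h4 : |t| ^ (2 + 1) / (1 - |t|) ≤ 2 * |t| ^ 3 := by
    rw [div_le_iff₀ (by linarith)]
    have : 0 ≤ |t| ^ 3 := by positivity
    have := mul_nonneg this (by linarith : 0 ≤ 1 - 2 * |t|)
    norm_num; linarith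
  push_cast at h1
  nlinarith

theorem logP_out {m : ℕ} (hA : A.mem u x) (hm : A.c = Int.ofNat m) (h : logP A m k = true) :
    Out u (Real.log x) k := by
  rw [logP, frN_eq, frN_eq, frN_eq] at h
  obtain ⟨h1, h⟩ := brec h
  obtain ⟨h1, h2⟩ := brec h1
  obtain ⟨h2, h3⟩ := brec h2
  set j := Nat.log2 m
  have hp : 0 < Nat.pow 2 j := Nat.pos_of_ne_zero (by simp)
  have h1' := Nat.le_of_ble_eq_true h1
  have h2' := ble_le h2
  have h3' := ble_le h3
  rw [nadd] at h2' h3'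
  obtain ⟨L, H, hL, hH, h⟩ := logN_out hp h1' h2' h
  rw [frN_eq, frN_eq, frN_eq, frI_eq] at h
  refine linK_out hA h ?_
  have hS := S_pos
  have rA := hA.rad
  have hm0 : 0 < m := lt_of_lt_of_le hp h1'
  have hm' : (0 : ℝ) < m := by exact_mod_cast hm0
  rw [hm, iofNat] at rA ⊢
  set t := (x * S - m) / m with ht
  set ro := Nat.succ (Nat.div (Nat.mul A.rad S) m) with hro
  have ht0 : |t| ≤ A.rad / m := by rw [ht, abs_div, abs_of_pos hm']; gcongr
  have ht1 : |t| ≤ ro / S := by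
    refine ht0.trans ?_
    rw [le_div_iff₀ hS, hro, nsucc]
    refine le_trans (le_of_eq ?_) (le_ndiv _ _ hm0); rw [nmul]; ring
  have ht2 : |t| ≤ 1 / 2 := by
    refine ht0.trans ?_; rw [div_le_iff₀ hm']; linarith
  obtain ⟨θ1, θ2⟩ := log_rem ht1 ht2
  have hp2 : ((Nat.pow 2 j : ℕ) : ℝ) = 2 ^ j := by simp
  have ex : Real.log x = Real.log (m / (Nat.pow 2 j : ℕ)) + (j - 40) * Real.log 2 + Real.log (1 + t) := by
    have t1 : 0 < 1 + t := by linarith [(abs_le.1 ht2).1]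
    have : x = m / (Nat.pow 2 j : ℕ) * (2 ^ j / 2 ^ 40) * (1 + t) := by
      rw [ht, hp2, ← S_val]; field_simp; ring
    rw [this, Real.log_mul (by rw [hp2]; positivity) t1.ne', Real.log_mul (by rw [hp2]; positivity) (by positivity),
      Real.log_div (by positivity) (by positivity) (x := 2 ^ j), Real.log_pow, Real.log_pow]
    push_cast; ring
  set q := Nat.add (Nat.add (Nat.shiftRight (Nat.mul ro ro) 42)
    (Nat.shiftRight (Nat.mul (Nat.mul ro ro) ro) 80)) 2 with hq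
  have hq1 : (((ro : ℝ) / S) ^ 2 / 2 + 2 * ((ro : ℝ) / S) ^ 3) * S ≤ 2 * q := by
    have a1 := le_shr (Nat.mul ro ro) 42
    have a2 := le_shr (Nat.mul (Nat.mul ro ro) ro) 80
    rw [hq]; simp only [nadd, nmul] at *
    rw [S_val]
    have e1 : (((ro : ℝ) / 2 ^ 40) ^ 2 / 2 + 2 * ((ro : ℝ) / 2 ^ 40) ^ 3) * 2 ^ 40 =
      2 * ((ro : ℝ) * ro / 2 ^ 42 + (ro : ℝ) * ro * ro / 2 ^ 80) := by ring
    rw [e1]; push_cast; linarith
  have eS : ((1208925819614629174706176 : ℕ) : ℝ) = S * S := by rw [S_val]; norm_num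
  have a1 := ndiv_le 1208925819614629174706176 m
  have a2 := le_ndiv 1208925819614629174706176 m hm0
  rw [eS] at a1 a2
  have r1 := le_shr A.rad 40
  rw [← S_val] at r1
  have hsub := nsub_ge H L
  have l2 : |Real.log 2 * S - 762123384774| ≤ 276 := by
    rw [S_val, abs_le]; constructor <;> linarith [Real.log_two_gt_d9, Real.log_two_lt_d9]
  simp only [iadd, imul, nadd, nmul, iofNat, isubNatNat, ab_eq] at *
  set al := ((Nat.div 1208925819614629174706176 m : ℕ) : ℝ)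
  have e : Real.log x * S - (((j : ℝ) - (40 : ℕ)) * (762123384774 : ℕ) + (L - q) + al * (x * S - m) / S) =
      (Real.log (m / (Nat.pow 2 j : ℕ)) * S - L) + ((j : ℝ) - (40 : ℕ)) * (Real.log 2 * S - 762123384774) +
        (q - (t - Real.log (1 + t)) * S) + (S * S / m - al) * ((x * S - m) / S) := by
    rw [ex, ht]; push_cast; field_simp; ring
  rw [e]
  have b1 : |((j : ℝ) - (40 : ℕ)) * (Real.log 2 * S - 762123384774)| ≤ |(j : ℝ) - (40 : ℕ)| * 276 := by
    rw [abs_mul]; gcongr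
  have b2 : |(S * S / m - al) * ((x * S - m) / S)| ≤ 1 * (A.rad / S) := by
    rw [abs_mul, abs_div, abs_of_pos hS]
    gcongr
    rw [abs_le]; constructor <;> linarith
  have b3 : 0 ≤ (t - Real.log (1 + t)) * S := by positivity
  have b4 : (t - Real.log (1 + t)) * S ≤ 2 * q := le_trans (by gcongr) hq1
  have hn : (0 : ℝ) ≤ (Nat.sub H L : ℕ) := by positivity
  have b1' := abs_le.1 b1
  have b2' := abs_le.1 b2
  rw [abs_le]; push_cast at *
  constructor <;> linarith [b1'.1, b1'.2, b2'.1, b2'.2]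

theorem logK_out (hA : A.mem u x) (h : logK A k = true) : Out u (Real.log x) k := by
  unfold logK at h
  cases hc : A.c with
  | ofNat n => rw [hc] at h; exact logP_out hA hc h
  | negSucc n => rw [hc] at h; exact absurd h (by simp)

theorem invP_out {m : ℕ} (hA : A.mem u x) (hm : (A.c : ℝ) = m) (h : invP A m k = true) :
    Out u x⁻¹ k := by
  rw [invP, frN_eq] at h
  obtain ⟨h1, h⟩ := brec h
  rw [frN_eq, frN_eq, frN_eq, frN_eq] at h
  refine linK_out hA h ?_
  have h3' := ble_le h1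
  rw [nsucc, nadd] at h3'
  have hS := S_pos
  have rA := hA.rad
  have hm' : (0 : ℝ) < m := lt_of_lt_of_le (by positivity) h3'
  have hm0 : 0 < m := by exact_mod_cast hm'
  rw [hm] at rA ⊢
  set t := (x * S - m) / m with ht
  set ro := Nat.succ (Nat.div (Nat.mul A.rad S) m) with hro
  have ht0 : |t| ≤ A.rad / m := by rw [ht, abs_div, abs_of_pos hm']; gcongr
  have ht1 : |t| ≤ ro / S := by
    refine ht0.trans ?_
    rw [le_div_iff₀ hS, hro, nsucc]
    refine le_trans (le_of_eq ?_) (le_ndiv _ _ hm0); rw [nmul]; ring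
  have ht2 : |t| ≤ 1 / 2 := by
    refine ht0.trans ?_; rw [div_le_iff₀ hm']; linarith
  have t1 : 1 / 2 ≤ 1 + t := by linarith [(abs_le.1 ht2).1]
  have θ1 : 0 ≤ t ^ 2 / (1 + t) := by positivity
  have θ3 : t ^ 2 / (1 + t) ≤ t ^ 2 + 2 * |t| ^ 3 := by
    rw [div_le_iff₀ (by linarith), ← sq_abs t]
    have a := abs_nonneg t
    have b := neg_abs_le t
    have c : 0 ≤ |t| ^ 2 := by positivity
    have : |t| ^ 2 ≤ (|t| ^ 2 + 2 * |t| ^ 3) * (1 - |t|) := by nlinarith [mul_nonneg (mul_nonneg c a) (by linarith : 0 ≤ 1 - 2 * |t|)]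
    refine this.trans ?_
    gcongr; linarith
  have θ2 : t ^ 2 / (1 + t) ≤ ((ro : ℝ) / S) ^ 2 + 2 * ((ro : ℝ) / S) ^ 3 := by
    have h2 : |t| ^ 3 ≤ ((ro : ℝ) / S) ^ 3 := pow_le_pow_left₀ (abs_nonneg _) ht1 3
    have h3 : t ^ 2 ≤ ((ro : ℝ) / S) ^ 2 := by rw [← sq_abs]; exact pow_le_pow_left₀ (abs_nonneg _) ht1 2
    linarith
  have θ4 : t ^ 2 / (1 + t) ≤ 1 := by
    rw [div_le_one (by linarith)]; nlinarith [abs_le.1 ht2]
  have ex : x⁻¹ * S = S * S / m * (1 - t + t ^ 2 / (1 + t)) := by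
    have : x = m / S * (1 + t) := by rw [ht]; field_simp; ring
    have t2 : 1 + t ≠ 0 := by linarith
    clear_value t
    rw [this]; field_simp; ring
  set Q := Nat.add (Nat.add (Nat.shiftRight (Nat.mul ro ro) 40)
    (Nat.shiftRight (Nat.mul (Nat.mul ro ro) ro) 79)) 2 with hQ
  have hQ1 : ((ro : ℝ) / S) ^ 2 + 2 * ((ro : ℝ) / S) ^ 3 ≤ Q / S := by
    have a1 := le_shr (Nat.mul ro ro) 40
    have a2 := le_shr (Nat.mul (Nat.mul ro ro) ro) 79
    rw [hQ]; simp only [nadd, nmul] at *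
    rw [le_div_iff₀ hS, S_val]
    have e1 : (((ro : ℝ) / 2 ^ 40) ^ 2 + 2 * ((ro : ℝ) / 2 ^ 40) ^ 3) * 2 ^ 40 =
      (ro : ℝ) * ro / 2 ^ 40 + (ro : ℝ) * ro * ro / 2 ^ 79 := by ring
    rw [e1]; push_cast; linarith
  have eS : ((1208925819614629174706176 : ℕ) : ℝ) = S * S := by rw [S_val]; norm_num
  have eS3 : ((1329227995784915872903807060280344576 : ℕ) : ℝ) = S * S * S := by rw [S_val]; norm_num
  have a1 := ndiv_le 1208925819614629174706176 m
  have a2 := le_ndiv 1208925819614629174706176 m hm0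
  have c1 := ndiv_le 1329227995784915872903807060280344576 (Nat.mul m m)
  have c2 := le_ndiv 1329227995784915872903807060280344576 (Nat.mul m m) (Nat.mul_pos hm0 hm0)
  rw [eS] at a1 a2
  rw [eS3] at c1 c2
  set I := Nat.div 1208925819614629174706176 m
  have q1 := shr_le (Nat.mul I Q) 41
  have q2 := le_shr (Nat.mul I Q) 41
  have r1 := le_shr A.rad 40
  rw [← S_val] at r1
  simp only [ineg, nadd, nmul, iofNat] at *
  set q := ((Nat.shiftRight (Nat.mul I Q) 41 : ℕ) : ℝ)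
  set al := ((Nat.div 1329227995784915872903807060280344576 (Nat.mul m m) : ℕ) : ℝ)
  have e : x⁻¹ * S - (I + q + -al * (x * S - m) / S) =
      (S * S / m - I) * (1 + t ^ 2 / (1 + t)) + (I * (t ^ 2 / (1 + t)) - q) -
        (S * S * S / (m * m) - al) * ((x * S - m) / S) := by
    rw [ex]
    have : x * S - m = t * m := by rw [ht]; field_simp
    rw [this]
    generalize t ^ 2 / (1 + t) = θ
    clear_value t
    field_simp; ring
  rw [e]
  have b2 : |(S * S * S / (m * m) - al) * ((x * S - m) / S)| ≤ 1 * (A.rad / S) := by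
    rw [abs_mul, abs_div, abs_of_pos hS]
    gcongr
    rw [abs_le]; constructor <;> linarith
  have b1 : 0 ≤ (S * S / m - I) * (1 + t ^ 2 / (1 + t)) := mul_nonneg (by linarith) (by linarith)
  have b1' : (S * S / m - I) * (1 + t ^ 2 / (1 + t)) ≤ 1 * 2 :=
    mul_le_mul (by linarith) (by linarith) (by linarith) (by norm_num)
  have hI : (0 : ℝ) ≤ I := by positivity
  have b3 : 0 ≤ (I : ℝ) * (t ^ 2 / (1 + t)) := mul_nonneg hI θ1
  have b4 : (I : ℝ) * (t ^ 2 / (1 + t)) ≤ 2 * (I * Q / 2 ^ 41) := by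
    have : (I : ℝ) * (t ^ 2 / (1 + t)) ≤ I * (Q / S) := mul_le_mul_of_nonneg_left (θ2.trans hQ1) hI
    rw [S_val] at this; linarith
  have b2' := abs_le.1 b2
  rw [abs_le]; push_cast at *
  constructor <;> linarith [b2'.1, b2'.2]

theorem invK_out (hA : A.mem u x) (h : invK A k = true) : Out u x⁻¹ k := by
  unfold invK at h
  cases hc : A.c with
  | ofNat n => rw [hc] at h; exact invP_out hA (by rw [hc, iofNat]) h
  | negSucc n =>
    rw [hc] at h
    change negK A _ = true at h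
    rw [negK, mk_eq] at h
    obtain ⟨C, hC, h⟩ := invP_out (negK_mem hA) (by simp only [ineg, hc, inegSucc, nsucc]; ring) h
    have := negK_out hC h
    rwa [inv_neg, neg_neg] at this

end Crest.Agent.Lib.IBox
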