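import Crest.Agent.Lib.IBoxB

/-!
# Soundness of the box prover: programs and bisection trees

Main results: `check_sound` (a successful kernel run proves `Holds`), `Holds.split` (glue two halves),
`Holds.out` (use on real variables).
-/

set_option autoImplicit false

namespace Crest.Agent.Lib.IBox

variable {u : Nz}

theorem getK_out (i : ℕ) : ∀ {env : List AF} {ρ : List ℝ} {k : AF → Bool},
    List.Forall₂ (AF.mem u) env ρ → getK i env k = true → Out u (ρ.getD i 0) k := by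
  induction i with
  | zero =>
    intro env ρ k hρ h
    cases hρ with
    | nil => exact absurd h (by simp [getK])
    | cons h1 _ => exact ⟨_, h1, h⟩
  | succ i ih =>
    intro env ρ k hρ h
    cases hρ with
    | nil => exact absurd h (by simp [getK])
    | cons _ h2 => exact ih h2 h

theorem ev_out {env : List AF} {ρ : List ℝ} (hρ : List.Forall₂ (AF.mem u) env ρ) (x : Ex) :
    ∀ {k : AF → Bool}, ev env x k = true → Out u (x.val ρ) k := by
  induction x with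
  | v i => intro k h; exact getK_out i hρ h
  | c n d =>
    intro k h
    simp only [ev] at h
    rw [frI_eq] at h
    refine ⟨_, ?_, h⟩
    have := dv_abs (Int.mul n (Int.ofNat S)) d
    rw [imul, iofNat, abs_sub_comm] at this
    unfold AF.mem AF.ln Ex.val
    simp only [iofNat]
    refine le_trans (le_of_eq ?_) (this.trans (by norm_num))
    congr 1; push_cast; ring
  | add x y p q =>
    intro k h; obtain ⟨A, hA, h⟩ := p h; obtain ⟨B, hB, h⟩ := q h; exact addK_out hA hB h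
  | sub x y p q =>
    intro k h; obtain ⟨A, hA, h⟩ := p h; obtain ⟨B, hB, h⟩ := q h; exact subK_out hA hB h
  | mul x y p q =>
    intro k h; obtain ⟨A, hA, h⟩ := p h; obtain ⟨B, hB, h⟩ := q h; exact mulK_out hA hB h
  | neg x p => intro k h; obtain ⟨A, hA, h⟩ := p h; exact negK_out hA h
  | sm n d x p => intro k h; obtain ⟨A, hA, h⟩ := p h; exact smK_out hA h
  | sq x p => intro k h; obtain ⟨A, hA, h⟩ := p h; exact sqK_out hA h
  | inv x p => intro k h; obtain ⟨A, hA, h⟩ := p h; exact invK_out hA h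
  | exp x p => intro k h; obtain ⟨A, hA, h⟩ := p h; exact expK_out hA h
  | log x p => intro k h; obtain ⟨A, hA, h⟩ := p h; exact logK_out hA h
  | max x y p q =>
    intro k h; obtain ⟨A, hA, h⟩ := p h; obtain ⟨B, hB, h⟩ := q h; exact maxK_out hA hB h
  | min x y p q =>
    intro k h; obtain ⟨A, hA, h⟩ := p h; obtain ⟨B, hB, h⟩ := q h; exact minK_out hA hB h
  | maxs x y p q =>
    intro k h; obtain ⟨A, hA, h⟩ := p h; obtain ⟨B, hB, h⟩ := q h; exact maxS_out hA hB h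
  | mins x y p q =>
    intro k h; obtain ⟨A, hA, h⟩ := p h; obtain ⟨B, hB, h⟩ := q h; exact minS_out hA hB h

theorem AF.pos_sound {A : AF} {x : ℝ} (hA : A.mem u x) (h : A.pos = true) : 0 < x := by
  have rA := abs_le.1 hA.rad
  unfold AF.pos at h
  cases hc : A.c with
  | ofNat n =>
    rw [hc] at h rA
    have := ble_le h
    rw [nsucc] at this
    rw [iofNat] at rA
    have h0 : 0 < x * S := by linarith [rA.1]
    exact (mul_pos_iff_of_pos_right S_pos).1 h0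
  | negSucc n => rw [hc] at h; exact absurd h (by simp)

theorem ok_sound (p : Pg) : ∀ {env : List AF} {ρ : List ℝ},
    List.Forall₂ (AF.mem u) env ρ → ok p env = true → p.Good ρ := by
  induction p with
  | nil => intro env ρ _ h; exact absurd h (by simp [ok])
  | push x p ih =>
    intro env ρ hρ h
    obtain ⟨A, hA, h⟩ := ev_out hρ x h
    exact ih (List.Forall₂.cons hA hρ) h
  | tst x p ih =>
    intro env ρ hρ h
    change Bool.rec (ok p env) true (ev env x AF.pos) = true at h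
    cases hb : ev env x AF.pos with
    | true =>
      obtain ⟨A, hA, h⟩ := ev_out hρ x hb
      exact Or.inl (AF.pos_sound hA h)
    | false => rw [hb] at h; exact Or.inr (ih hρ h)

theorem mid_le {l h : ℤ} {t : ℝ} (h1 : (l : ℝ) ≤ t) (h2 : t ≤ h) :
    |t - (mid l h : ℤ)| ≤ ((Int.sub h (mid l h) : ℤ) : ℝ) := by
  have := (dv_spec (Int.add l h) 1).1
  rw [iadd] at this
  rw [isub, abs_le]
  change ((mid l h : ℤ) : ℝ) ≤ _ at this
  norm_num at this
  constructor <;> linarith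

theorem exists_noise {t r : ℝ} (h : |t| ≤ r) : ∃ p : ℝ, |p| ≤ 1 ∧ t = r * p := by
  rcases eq_or_lt_of_le ((abs_nonneg t).trans h) with h0 | h0
  · exact ⟨0, by simp, by rw [← h0] at h; simpa using h⟩
  · refine ⟨t / r, ?_, by field_simp⟩
    rw [abs_div, abs_of_pos h0, div_le_one h0]; exact h

/-- constants: forms that are valid for all values of the noise symbols -/
def CEnv (env : List AF) (ρ : List ℝ) : Prop := ∀ u : Nz, List.Forall₂ (AF.mem u) env ρ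

theorem leaf_sound {env : List AF} {ρ : List ℝ} (hρ : CEnv env ρ) {p : Pg} {B : Bx}
    (h : leaf env p B = true) {x y z w : ℝ} (hB : B.In x y z w) : p.Good (x :: y :: z :: w :: ρ) := by
  simp only [leaf, frI_eq] at h
  obtain ⟨a1, a2, b1, b2, c1, c2, d1, d2⟩ := hB
  obtain ⟨p1, hp1, e1⟩ := exists_noise (mid_le a1 a2)
  obtain ⟨p2, hp2, e2⟩ := exists_noise (mid_le b1 b2)
  obtain ⟨p3, hp3, e3⟩ := exists_noise (mid_le c1 c2)
  obtain ⟨p4, hp4, e4⟩ := exists_noise (mid_le d1 d2)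
  refine ok_sound (u := ⟨p1, p2, p3, p4, hp1, hp2, hp3, hp4⟩) p ?_ h
  refine .cons ?_ (.cons ?_ (.cons ?_ (.cons ?_ (hρ _))))
  all_goals
    unfold AF.mem AF.ln
    simp only [iofNat]
    push_cast
    rw [abs_nonpos_iff]
    linarith

theorem halves_eq (i : ℕ) (B : Bx) : ∃ B1 B2 : Bx, (∀ k, halves i B k = k B1 B2) ∧
    ∀ x y z w, B.In x y z w → B1.In x y z w ∨ B2.In x y z w := by
  rcases i with _ | _ | _ | i
  · refine ⟨⟨B.l1, mid B.l1 B.h1, B.l2, B.h2, B.l3, B.h3, B.l4, B.h4⟩,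
      ⟨mid B.l1 B.h1, B.h1, B.l2, B.h2, B.l3, B.h3, B.l4, B.h4⟩, fun k => by simp only [halves, frI_eq]; rfl,
      fun x y z w ⟨a1, a2, b⟩ => ?_⟩
    rcases le_total (x * S) (mid B.l1 B.h1 : ℤ) with h | h
    · exact Or.inl ⟨a1, h, b⟩
    · exact Or.inr ⟨h, a2, b⟩
  · refine ⟨⟨B.l1, B.h1, B.l2, mid B.l2 B.h2, B.l3, B.h3, B.l4, B.h4⟩,
      ⟨B.l1, B.h1, mid B.l2 B.h2, B.h2, B.l3, B.h3, B.l4, B.h4⟩, fun k => by simp only [halves, frI_eq]; rfl,
      fun x y z w ⟨a1, a2, b1, b2, c⟩ => ?_⟩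
    rcases le_total (y * S) (mid B.l2 B.h2 : ℤ) with h | h
    · exact Or.inl ⟨a1, a2, b1, h, c⟩
    · exact Or.inr ⟨a1, a2, h, b2, c⟩
  · refine ⟨⟨B.l1, B.h1, B.l2, B.h2, B.l3, mid B.l3 B.h3, B.l4, B.h4⟩,
      ⟨B.l1, B.h1, B.l2, B.h2, mid B.l3 B.h3, B.h3, B.l4, B.h4⟩, fun k => by simp only [halves, frI_eq]; rfl,
      fun x y z w ⟨a1, a2, b1, b2, c1, c2, d⟩ => ?_⟩
    rcases le_total (z * S) (mid B.l3 B.h3 : ℤ) with h | h
    · exact Or.inl ⟨a1, a2, b1, b2, c1, h, d⟩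
    · exact Or.inr ⟨a1, a2, b1, b2, h, c2, d⟩
  · refine ⟨⟨B.l1, B.h1, B.l2, B.h2, B.l3, B.h3, B.l4, mid B.l4 B.h4⟩,
      ⟨B.l1, B.h1, B.l2, B.h2, B.l3, B.h3, mid B.l4 B.h4, B.h4⟩, fun k => by simp only [halves, frI_eq],
      fun x y z w ⟨a1, a2, b1, b2, c1, c2, d1, d2⟩ => ?_⟩
    rcases le_total (w * S) (mid B.l4 B.h4 : ℤ) with h | h
    · exact Or.inl ⟨a1, a2, b1, b2, c1, c2, d1, h⟩
    · exact Or.inr ⟨a1, a2, b1, b2, c1, c2, h, d2⟩

theorem run_sound {env : List AF} {ρ : List ℝ} (hρ : CEnv env ρ) {p : Pg} (fuel : ℕ) :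
    ∀ {code : ℕ} {B : Bx} {k : ℕ → Bool}, run env p fuel code B k = true →
      (∀ x y z w, B.In x y z w → p.Good (x :: y :: z :: w :: ρ)) ∧ ∃ r, k r = true := by
  induction fuel with
  | zero => intro code B k h; exact absurd h (by simp [run])
  | succ f ih =>
    intro code B k h
    change frN _ (fun rest => Nat.rec (Bool.rec false (k rest) (leaf env p B))
      (fun i _ => halves i B fun B1 B2 => run env p f rest B1 fun rest' => run env p f rest' B2 k)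
      (Nat.land code 7)) = true at h
    rw [frN_eq] at h
    cases hd : Nat.land code 7 with
    | zero =>
      rw [hd] at h
      obtain ⟨h1, h2⟩ := brec h
      exact ⟨fun x y z w hB => leaf_sound hρ h1 hB, _, h2⟩
    | succ i =>
      rw [hd] at h
      obtain ⟨B1, B2, e, hB⟩ := halves_eq i B
      change halves i B _ = true at h
      rw [e] at h
      obtain ⟨g1, r, h⟩ := ih h
      obtain ⟨g2, hk⟩ := ih h
      exact ⟨fun x y z w h => (hB x y z w h).elim (g1 x y z w) (g2 x y z w), hk⟩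

/-- a form without noise coefficients -/
def AF.Flat (A : AF) : Prop := A.a = 0 ∧ A.b = 0 ∧ A.d = 0 ∧ A.f = 0

def nz0 : Nz := ⟨0, 0, 0, 0, by simp, by simp, by simp, by simp⟩

theorem pre_sound (cs : List Ex) : ∀ {env : List AF} {ρ : List ℝ} {k : List AF → Bool},
    CEnv env ρ → pre cs env k = true → ∃ env', CEnv env' (preV cs ρ) ∧ k env' = true := by
  induction cs with
  | nil => intro env ρ k hρ h; exact ⟨env, hρ, h⟩
  | cons x cs ih =>
    intro env ρ k hρ h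
    change ev env x (fun A => pre cs (List.cons ⟨A.c, Int.ofNat 0, Int.ofNat 0, Int.ofNat 0, Int.ofNat 0, A.e⟩ env) k)
      = true at h
    obtain ⟨A, hA, h⟩ := ev_out (hρ nz0) x h
    refine ih (fun u => List.Forall₂.cons ?_ (hρ u)) h
    unfold AF.mem AF.ln nz0 at *
    simpa using hA

theorem check_sound {cs : List Ex} {p : Pg} {B : Bx} {code : ℕ} (h : check cs p B code = true) :
    Holds cs p B := by
  obtain ⟨env, hρ, h⟩ := pre_sound cs (env := []) (ρ := []) (fun _ => List.Forall₂.nil) h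
  exact (run_sound hρ 200 h).1

/-- glue along coordinate 1 (resp. 2, 3, 4) at an arbitrary cut `m` -/
theorem Holds.split1 {cs : List Ex} {p : Pg} {a b c d e f g h : ℤ} (m : ℤ)
    (h1 : Holds cs p ⟨a, m, c, d, e, f, g, h⟩) (h2 : Holds cs p ⟨m, b, c, d, e, f, g, h⟩) :
    Holds cs p ⟨a, b, c, d, e, f, g, h⟩ := fun x y z w ⟨a1, a2, r⟩ =>
  (le_total (x * S) m).elim (fun t => h1 x y z w ⟨a1, t, r⟩) fun t => h2 x y z w ⟨t, a2, r⟩
theorem Holds.split2 {cs : List Ex} {p : Pg} {a b c d e f g h : ℤ} (m : ℤ)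
    (h1 : Holds cs p ⟨a, b, c, m, e, f, g, h⟩) (h2 : Holds cs p ⟨a, b, m, d, e, f, g, h⟩) :
    Holds cs p ⟨a, b, c, d, e, f, g, h⟩ := fun x y z w ⟨a1, a2, b1, b2, r⟩ =>
  (le_total (y * S) m).elim (fun t => h1 x y z w ⟨a1, a2, b1, t, r⟩) fun t => h2 x y z w ⟨a1, a2, t, b2, r⟩
theorem Holds.split3 {cs : List Ex} {p : Pg} {a b c d e f g h : ℤ} (m : ℤ)
    (h1 : Holds cs p ⟨a, b, c, d, e, m, g, h⟩) (h2 : Holds cs p ⟨a, b, c, d, m, f, g, h⟩) :
    Holds cs p ⟨a, b, c, d, e, f, g, h⟩ := fun x y z w ⟨a1, a2, b1, b2, c1, c2, r⟩ =>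
  (le_total (z * S) m).elim (fun t => h1 x y z w ⟨a1, a2, b1, b2, c1, t, r⟩)
    fun t => h2 x y z w ⟨a1, a2, b1, b2, t, c2, r⟩
theorem Holds.split4 {cs : List Ex} {p : Pg} {a b c d e f g h : ℤ} (m : ℤ)
    (h1 : Holds cs p ⟨a, b, c, d, e, f, g, m⟩) (h2 : Holds cs p ⟨a, b, c, d, e, f, m, h⟩) :
    Holds cs p ⟨a, b, c, d, e, f, g, h⟩ := fun x y z w ⟨a1, a2, b1, b2, c1, c2, d1, d2⟩ =>
  (le_total (w * S) m).elim (fun t => h1 x y z w ⟨a1, a2, b1, b2, c1, c2, d1, t⟩)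
    fun t => h2 x y z w ⟨a1, a2, b1, b2, c1, c2, t, d2⟩

/-- membership in a box from real bounds -/
theorem Bx.In.of_bounds {B : Bx} {x y z w a1 a2 b1 b2 c1 c2 d1 d2 : ℝ}
    (hx : a1 ≤ x ∧ x ≤ a2) (hy : b1 ≤ y ∧ y ≤ b2) (hz : c1 ≤ z ∧ z ≤ c2) (hw : d1 ≤ w ∧ w ≤ d2)
    (h : (B.l1 : ℝ) ≤ a1 * 2 ^ 40 ∧ a2 * 2 ^ 40 ≤ B.h1 ∧ (B.l2 : ℝ) ≤ b1 * 2 ^ 40 ∧ b2 * 2 ^ 40 ≤ B.h2 ∧
      (B.l3 : ℝ) ≤ c1 * 2 ^ 40 ∧ c2 * 2 ^ 40 ≤ B.h3 ∧ (B.l4 : ℝ) ≤ d1 * 2 ^ 40 ∧ d2 * 2 ^ 40 ≤ B.h4) :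
    B.In x y z w := by
  obtain ⟨h1, h2, h3, h4, h5, h6, h7, h8⟩ := h
  unfold Bx.In
  rw [S_val]
  refine ⟨?_, ?_, ?_, ?_, ?_, ?_, ?_, ?_⟩ <;> linarith [hx.1, hx.2, hy.1, hy.2, hz.1, hz.2, hw.1, hw.2]

end Crest.Agent.Lib.IBox
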