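import Crest.Agent.Lib.IBoxC

/-!
# Box prover, second expression language: lazy conditionals, local definitions, linear combinations,
`log (1+x)/x`, `(exp x - 1)/x`; the bisection code selects one of four tests at each leaf.
-/

set_option autoImplicit false

namespace Crest.Agent.Lib.IBox

noncomputable section

/-- `log (1+x) / x` -/
def lg1 (x : ℝ) : ℝ := if x = 0 then 1 else Real.log (1 + x) / x
/-- `(exp x - 1) / x` -/
def ex1 (x : ℝ) : ℝ := if x = 0 then 1 else (Real.exp x - 1) / x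

theorem mul_lg1 (x : ℝ) : x * lg1 x = Real.log (1 + x) := by
  unfold lg1; split_ifs with h
  · simp [h]
  · field_simp
theorem mul_ex1 (x : ℝ) : x * ex1 x = Real.exp x - 1 := by
  unfold ex1; split_ifs with h
  · simp [h]
  · field_simp

inductive Lc where
  | nil
  | cons (n : ℤ) (i : ℕ) (t : Lc)

def Lc.val (ρ : List ℝ) : Lc → ℝ
  | .nil => 0
  | .cons n i t => (n : ℝ) * ρ.getD i 0 + t.val ρ

inductive Fx where
  | v (i : ℕ)
  | c (n : ℤ) (d : ℕ)
  | add (x y : Fx)
  | sub (x y : Fx)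
  | mul (x y : Fx)
  | sm (n : ℤ) (d : ℕ) (x : Fx)
  | exp (x : Fx)
  | log (x : Fx)
  | max (x y : Fx)
  | min (x y : Fx)
  | maxs (x y : Fx)
  | mins (x y : Fx)
  | its (x y z : Fx)
  | lt (x y : Fx)
  | lc (n : ℤ) (d : ℕ) (t : Lc)
  | lg1 (x : Fx)
  | ex1 (x : Fx)

def Fx.val : Fx → List ℝ → ℝ
  | .v i, ρ => ρ.getD i 0
  | .c n d, _ => (n : ℝ) / ((d : ℝ) + 1)
  | .add x y, ρ => x.val ρ + y.val ρ
  | .sub x y, ρ => x.val ρ - y.val ρ
  | .mul x y, ρ => x.val ρ * y.val ρ
  | .sm n d x, ρ => (n : ℝ) / ((d : ℝ) + 1) * x.val ρ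
  | .exp x, ρ => Real.exp (x.val ρ)
  | .log x, ρ => Real.log (x.val ρ)
  | .max x y, ρ => Max.max (x.val ρ) (y.val ρ)
  | .min x y, ρ => Min.min (x.val ρ) (y.val ρ)
  | .maxs x y, ρ => Max.max (x.val ρ) (y.val ρ)
  | .mins x y, ρ => Min.min (x.val ρ) (y.val ρ)
  | .its x y z, ρ => if 0 ≤ x.val ρ then y.val ρ else z.val ρ
  | .lt x y, ρ => y.val (x.val ρ :: ρ)
  | .lc n d t, ρ => ((n : ℝ) + t.val ρ) / ((d : ℝ) + 1)
  | .lg1 x, ρ => IBox.lg1 (x.val ρ)
  | .ex1 x, ρ => IBox.ex1 (x.val ρ)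

/-- lazy conditional: `a` if the form is `≥ 0`, `b` if it is `< 0`, both otherwise -/
def itK (A : AF) (a b : Bool) : Bool :=
  frN A.rad fun r =>
    Int.rec (fun n => Bool.rec (Bool.rec false b a) a (Nat.ble r n))
      (fun n => Bool.rec (Bool.rec false b a) b (Nat.ble r n)) A.c

def lcK (env : List AF) (D : ℕ) (k : AF → Bool) (t : Lc) : ℤ → ℤ → ℤ → ℤ → ℤ → ℕ → Bool :=
  Lc.rec (motive := fun _ => ℤ → ℤ → ℤ → ℤ → ℤ → ℕ → Bool)
    (fun c a b d f e => mk (dv c D) (dv a D) (dv b D) (dv d D) (dv f D)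
      (Nat.add (Nat.div e (Nat.succ D)) 6) k)
    (fun n i _ ih c a b d f e => getK i env fun A =>
      frI (Int.add c (Int.mul n A.c)) fun c => frI (Int.add a (Int.mul n A.a)) fun a =>
      frI (Int.add b (Int.mul n A.b)) fun b => frI (Int.add d (Int.mul n A.d)) fun d =>
      frI (Int.add f (Int.mul n A.f)) fun f => ih c a b d f (Nat.add e (Nat.mul (ab n) A.e))) t

/-- `1 + n₁/(d₁+1) x + x²/(d₂+1) ± |x|³ / 2^(s-80)` for `|x| ≤ 1/4` -/
def polyK (A : AF) (n1 : ℤ) (d2 s : ℕ) (k : AF → Bool) : Bool :=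
  frN (Nat.add (ab A.c) A.rad) fun R => Bool.rec false
    (sqK A fun Q => smK (Int.ofNat 1) d2 Q fun Q' => smK n1 1 A fun H => addK Q' H fun P =>
      mk (Int.add P.c (Int.ofNat S)) P.a P.b P.d P.f
        (Nat.succ (Nat.add P.e (Nat.shiftRight (Nat.mul (Nat.mul R R) R) s))) k)
    (Nat.ble R 274877906944)

def fev (x : Fx) : List AF → (AF → Bool) → Bool :=
  Fx.rec (motive := fun _ => List AF → (AF → Bool) → Bool)
    (fun i env k => getK i env k)
    (fun n d _ k => frI (dv (Int.mul n (Int.ofNat S)) d) fun c =>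
      k ⟨c, Int.ofNat 0, Int.ofNat 0, Int.ofNat 0, Int.ofNat 0, 1⟩)
    (fun _ _ p q env k => p env fun A => q env fun B => addK A B k)
    (fun _ _ p q env k => p env fun A => q env fun B => subK A B k)
    (fun _ _ p q env k => p env fun A => q env fun B => mulK A B k)
    (fun n d _ p env k => p env fun A => smK n d A k)
    (fun _ p env k => p env fun A => expK A k)
    (fun _ p env k => p env fun A => logK A k)
    (fun _ _ p q env k => p env fun A => q env fun B => maxK A B k)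
    (fun _ _ p q env k => p env fun A => q env fun B => minK A B k)
    (fun _ _ p q env k => p env fun A => q env fun B => maxS A B k)
    (fun _ _ p q env k => p env fun A => q env fun B => minS A B k)
    (fun _ _ _ p q r env k => p env fun A => itK A (q env k) (r env k))
    (fun _ _ p q env k => p env fun A => q (List.cons A env) k)
    (fun n d t env k => lcK env d k t (Int.mul n (Int.ofNat S)) (Int.ofNat 0) (Int.ofNat 0)
      (Int.ofNat 0) (Int.ofNat 0) 0)
    (fun _ p env k => p env fun A => polyK A (Int.negSucc 0) 2 81 k)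
    (fun _ p env k => p env fun A => polyK A (Int.ofNat 1) 5 84 k) x

/-- evaluate all constants of an expression before continuing -/
def frL (t : Lc) : (Lc → Bool) → Bool :=
  Lc.rec (motive := fun _ => (Lc → Bool) → Bool) (fun k => k .nil)
    (fun n i _ ih k => frI n fun n => frN i fun i => ih fun t => k (.cons n i t)) t

def frF (x : Fx) : (Fx → Bool) → Bool :=
  Fx.rec (motive := fun _ => (Fx → Bool) → Bool)
    (fun i k => frN i fun i => k (.v i))
    (fun n d k => frI n fun n => frN d fun d => k (.c n d))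
    (fun _ _ p q k => p fun a => q fun b => k (.add a b))
    (fun _ _ p q k => p fun a => q fun b => k (.sub a b))
    (fun _ _ p q k => p fun a => q fun b => k (.mul a b))
    (fun n d _ p k => frI n fun n => frN d fun d => p fun a => k (.sm n d a))
    (fun _ p k => p fun a => k (.exp a))
    (fun _ p k => p fun a => k (.log a))
    (fun _ _ p q k => p fun a => q fun b => k (.max a b))
    (fun _ _ p q k => p fun a => q fun b => k (.min a b))
    (fun _ _ p q k => p fun a => q fun b => k (.maxs a b))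
    (fun _ _ p q k => p fun a => q fun b => k (.mins a b))
    (fun _ _ _ p q r k => p fun a => q fun b => r fun c => k (.its a b c))
    (fun _ _ p q k => p fun a => q fun b => k (.lt a b))
    (fun n d t k => frI n fun n => frN d fun d => frL t fun t => k (.lc n d t))
    (fun _ p k => p fun a => k (.lg1 a))
    (fun _ p k => p fun a => k (.ex1 a)) x

def fleaf (env : List AF) (p : Fx) (B : Bx) : Bool :=
  frI (mid B.l1 B.h1) fun c1 => frI (Int.sub B.h1 c1) fun r1 =>
  frI (mid B.l2 B.h2) fun c2 => frI (Int.sub B.h2 c2) fun r2 =>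
  frI (mid B.l3 B.h3) fun c3 => frI (Int.sub B.h3 c3) fun r3 =>
  frI (mid B.l4 B.h4) fun c4 => frI (Int.sub B.h4 c4) fun r4 =>
  fev p (List.cons ⟨c1, r1, Int.ofNat 0, Int.ofNat 0, Int.ofNat 0, 0⟩
    (List.cons ⟨c2, Int.ofNat 0, r2, Int.ofNat 0, Int.ofNat 0, 0⟩
    (List.cons ⟨c3, Int.ofNat 0, Int.ofNat 0, r3, Int.ofNat 0, 0⟩
    (List.cons ⟨c4, Int.ofNat 0, Int.ofNat 0, Int.ofNat 0, r4, 0⟩ env)))) AF.pos

/-- digits: `0,5,6,7` = leaf with test `p0,p1,p2,p3`; `1..4` = bisect -/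
def frun (env : List AF) (p0 p1 p2 p3 : Fx) (fuel : ℕ) : ℕ → Bx → (ℕ → Bool) → Bool :=
  Nat.rec (fun _ _ _ => false)
    (fun _ ih code B k => frN (Nat.shiftRight code 3) fun rest =>
      Nat.rec (Bool.rec false (k rest) (fleaf env p0 B))
        (fun i _ => Bool.rec
          (Bool.rec false (k rest) (fleaf env (Bool.rec (Bool.rec p3 p2 (Nat.ble i 5)) p1 (Nat.ble i 4)) B))
          (halves i B fun B1 B2 => ih rest B1 fun rest' => ih rest' B2 k) (Nat.ble i 3))
        (Nat.land code 7)) fuel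

def fpre (cs : List Fx) : List AF → (List AF → Bool) → Bool :=
  List.rec (fun env k => k env) (fun x _ ih env k => fev x env fun A =>
    ih (List.cons ⟨A.c, Int.ofNat 0, Int.ofNat 0, Int.ofNat 0, Int.ofNat 0, A.e⟩ env) k) cs

def fpreV : List Fx → List ℝ → List ℝ
  | [], ρ => ρ
  | x :: cs, ρ => fpreV cs (x.val ρ :: ρ)

def fcheck (cs : List Fx) (p0 p1 p2 p3 : Fx) (B : Bx) (code : ℕ) : Bool :=
  frF p0 fun p0 => frF p1 fun p1 => frF p2 fun p2 => frF p3 fun p3 =>
  fpre cs List.nil fun env => frun env p0 p1 p2 p3 200 code B fun _ => true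

def FGood (p0 p1 p2 p3 : Fx) (ρ : List ℝ) : Prop :=
  0 < p0.val ρ ∨ 0 < p1.val ρ ∨ 0 < p2.val ρ ∨ 0 < p3.val ρ

/-- the statement certified by `fcheck` -/
def FHolds (cs : List Fx) (p0 p1 p2 p3 : Fx) (B : Bx) : Prop :=
  ∀ x y z w : ℝ, B.In x y z w → FGood p0 p1 p2 p3 (x :: y :: z :: w :: fpreV cs [])

end

variable {u : Nz}

theorem frL_eq (t : Lc) : ∀ k : Lc → Bool, frL t k = k t := by
  induction t with
  | nil => intro k; rfl
  | cons n i t ih =>
    intro k
    change frI n (fun n => frN i fun i => frL t fun t => k (.cons n i t)) = _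
    rw [frI_eq, frN_eq, ih]

theorem frF_eq (x : Fx) : ∀ k : Fx → Bool, frF x k = k x := by
  induction x with
  | v i => intro k; exact frN_eq i fun i => k (.v i)
  | c n d =>
    intro k
    change frI n (fun n => frN d fun d => k (.c n d)) = _
    rw [frI_eq, frN_eq]
  | add x y p q => intro k; exact (p _).trans (q _)
  | sub x y p q => intro k; exact (p _).trans (q _)
  | mul x y p q => intro k; exact (p _).trans (q _)
  | sm n d x p =>
    intro k
    change frI n (fun n => frN d fun d => frF x fun a => k (.sm n d a)) = _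
    rw [frI_eq, frN_eq, p]
  | exp x p => intro k; exact p _
  | log x p => intro k; exact p _
  | max x y p q => intro k; exact (p _).trans (q _)
  | min x y p q => intro k; exact (p _).trans (q _)
  | maxs x y p q => intro k; exact (p _).trans (q _)
  | mins x y p q => intro k; exact (p _).trans (q _)
  | its x y z p q r => intro k; exact (p _).trans ((q _).trans (r _))
  | lt x y p q => intro k; exact (p _).trans (q _)
  | lc n d t =>
    intro k
    change frI n (fun n => frN d fun d => frL t fun t => k (.lc n d t)) = _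
    rw [frI_eq, frN_eq, frL_eq]
  | lg1 x p => intro k; exact p _
  | ex1 x p => intro k; exact p _

theorem itK_cases {A : AF} {x : ℝ} {a b : Bool} (hA : A.mem u x) (h : itK A a b = true) :
    (0 ≤ x → a = true) ∧ (¬ 0 ≤ x → b = true) := by
  rw [itK, frN_eq] at h
  have rA := abs_le.1 hA.rad
  have hS := S_pos
  cases hc : A.c with
  | ofNat n =>
    rw [hc] at h rA
    rw [iofNat] at rA
    cases hb : Nat.ble A.rad n with
    | true =>
      simp only [hb] at h
      have := ble_le hb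
      refine ⟨fun _ => h, fun hx => ?_⟩
      have : x * S < 0 := mul_neg_of_neg_of_pos (not_le.1 hx) hS
      linarith [rA.1]
    | false =>
      simp only [hb] at h
      exact ⟨fun _ => (brec h).1, fun _ => (brec h).2⟩
  | negSucc n =>
    rw [hc] at h rA
    rw [inegSucc] at rA
    cases hb : Nat.ble A.rad n with
    | true =>
      simp only [hb] at h
      have := ble_le hb
      refine ⟨fun hx => ?_, fun _ => h⟩
      have : 0 ≤ x * S := mul_nonneg hx hS.le
      linarith [rA.2]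
    | false =>
      simp only [hb] at h
      exact ⟨fun _ => (brec h).1, fun _ => (brec h).2⟩

theorem lcK_out {env : List AF} {ρ : List ℝ} (hρ : List.Forall₂ (AF.mem u) env ρ) {D : ℕ}
    {k : AF → Bool} (t : Lc) : ∀ {c a b d f : ℤ} {e : ℕ} {x : ℝ}, AF.mem u ⟨c, a, b, d, f, e⟩ x →
      lcK env D k t c a b d f e = true → Out u ((x + t.val ρ) / (D + 1)) k := by
  induction t with
  | nil =>
    intro c a b d f e x hx h
    have := smK_out (n := Int.ofNat 1) (d := D) (k := k) hx (by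
      rw [← h]
      change mk _ _ _ _ _ _ _ = mk _ _ _ _ _ _ _
      congr 1 <;> simp [ab])
    simpa [Lc.val, div_eq_inv_mul] using this
  | cons n i t ih =>
    intro c a b d f e x hx h
    change getK i env (fun A =>
      frI (Int.add c (Int.mul n A.c)) fun c => frI (Int.add a (Int.mul n A.a)) fun a =>
      frI (Int.add b (Int.mul n A.b)) fun b => frI (Int.add d (Int.mul n A.d)) fun d =>
      frI (Int.add f (Int.mul n A.f)) fun f =>
        lcK env D k t c a b d f (Nat.add e (Nat.mul (ab n) A.e))) = true at h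
    obtain ⟨A, hA, h⟩ := getK_out i hρ h
    simp only [frI_eq] at h
    have := ih (x := x + n * ρ.getD i 0) ?_ h
    · simpa only [Lc.val, add_assoc] using this
    · unfold AF.mem AF.ln at *
      simp only [iadd, imul, nadd, nmul, ab_eq] at *
      have h1 := abs_add_le (x * S - (c + (a * u.p + b * u.q + d * u.r + f * u.s)))
        (n * (ρ.getD i 0 * S - (A.c + (A.a * u.p + A.b * u.q + A.d * u.r + A.f * u.s))))
      rw [abs_mul] at h1
      have h2 := mul_le_mul_of_nonneg_left hA (abs_nonneg (n : ℝ))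
      refine le_trans (le_of_eq ?_) (h1.trans (add_le_add hx h2))
      congr 1; ring

theorem polyK_out {A : AF} {x y : ℝ} {n1 : ℤ} {d2 s : ℕ} {k : AF → Bool} (hA : A.mem u x)
    (h : polyK A n1 d2 s k = true)
    (hy : |x| ≤ 1 / 4 → |y - (1 + n1 / 2 * x + x ^ 2 / (d2 + 1))| * 2 ^ s ≤ |x| ^ 3 * 2 ^ 80) :
    Out u y k := by
  rw [polyK, frN_eq] at h
  obtain ⟨hR, h⟩ := brec h
  have hR := ble_le hR
  obtain ⟨Q, hQ, h⟩ := sqK_out hA h
  obtain ⟨Q', hQ', h⟩ := smK_out hQ h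
  obtain ⟨H, hH, h⟩ := smK_out hA h
  obtain ⟨P, hP, h⟩ := addK_out hQ' hH h
  simp only [mk_eq] at h
  refine ⟨_, ?_, h⟩
  have hS := S_pos
  have rA := hA.rad
  have h3 := le_shr (Nat.mul (Nat.mul (Nat.add (ab A.c) A.rad) (Nat.add (ab A.c) A.rad))
    (Nat.add (ab A.c) A.rad)) s
  unfold AF.mem AF.ln at hP ⊢
  simp only [iadd, nadd, nmul, nsucc, iofNat, ab_eq] at hP h3 ⊢
  rw [nadd, ab_eq] at hR
  set R : ℝ := |(A.c : ℝ)| + A.rad with hRd
  have hx : |x| * S ≤ R := by
    have := abs_add_le (x * S - A.c) A.c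
    rw [sub_add_cancel, abs_mul, abs_of_pos hS] at this
    linarith
  have hx4 : |x| ≤ 1 / 4 := by
    rw [S_val] at hx
    norm_num at hR
    linarith
  have h4 := hy hx4
  have h5 : (|x| * S) ^ 3 ≤ R ^ 3 := pow_le_pow_left₀ (by positivity) hx 3
  have h6 : |y - (1 + n1 / 2 * x + x ^ 2 / (d2 + 1))| * S ≤ R * R * R / 2 ^ s := by
    rw [le_div_iff₀ (by positivity)]
    rw [S_val] at h5 ⊢
    nlinarith
  have h7 := abs_add_le ((y - (1 + n1 / 2 * x + x ^ 2 / (d2 + 1))) * S)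
    ((((1 : ℕ) : ℝ) / (d2 + 1) * x ^ 2 + n1 / ((1 : ℕ) + 1) * x) * S -
      (P.c + (P.a * u.p + P.b * u.q + P.d * u.r + P.f * u.s)))
  rw [abs_mul, abs_of_pos hS] at h7
  refine le_trans (le_of_eq ?_) (h7.trans (by linarith))
  congr 1; push_cast; ring

theorem lg1_bound {x : ℝ} (hx : |x| ≤ 1 / 4) :
    |lg1 x - (1 + ((Int.negSucc 0 : ℤ) : ℝ) / 2 * x + x ^ 2 / (((2 : ℕ) : ℝ) + 1))| * 2 ^ 81 ≤
      |x| ^ 3 * 2 ^ 80 := by
  rcases eq_or_ne x 0 with rfl | h0
  · simp [lg1]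
  have h1 := Real.abs_log_sub_add_sum_range_le (x := -x) (by rw [abs_neg]; linarith) 5
  simp only [Finset.sum_range_succ, Finset.sum_range_zero, abs_neg, sub_neg_eq_add] at h1
  have hp : 0 < |x| := abs_pos.2 h0
  have e : lg1 x - (1 + ((Int.negSucc 0 : ℤ) : ℝ) / 2 * x + x ^ 2 / (((2 : ℕ) : ℝ) + 1)) =
      (0 + (-x) ^ (0 + 1) / (((0 : ℕ) : ℝ) + 1) + (-x) ^ (1 + 1) / (((1 : ℕ) : ℝ) + 1) +
        (-x) ^ (2 + 1) / (((2 : ℕ) : ℝ) + 1) + (-x) ^ (3 + 1) / (((3 : ℕ) : ℝ) + 1) +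
        (-x) ^ (4 + 1) / (((4 : ℕ) : ℝ) + 1) + Real.log (1 + x)) / x + (-(x ^ 3 / 4) + x ^ 4 / 5) := by
    rw [lg1, if_neg h0, inegSucc]; push_cast; field_simp; ring
  rw [e]
  have h2 : |x| ^ (5 + 1) / (1 - |x|) ≤ |x| ^ 3 / 12 * |x| := by
    rw [div_le_iff₀ (by linarith)]
    have : |x| ^ 2 ≤ 1 / 16 := by nlinarith
    have h4 : 0 < |x| ^ 4 := by positivity
    nlinarith
  have h3 : |(-(x ^ 3 / 4) + x ^ 4 / 5)| ≤ |x| ^ 3 * (3 / 10) := by
    refine (abs_add_le _ _).trans ?_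
    rw [abs_neg, abs_div, abs_div, abs_pow, abs_pow]
    norm_num
    have h4 : 0 < |x| ^ 3 := by positivity
    have : |x| ^ 4 = |x| ^ 3 * |x| := by ring
    rw [← abs_pow x 4, abs_of_nonneg (by positivity : 0 ≤ x ^ 4)] at this
    nlinarith
  have h4 := (abs_add_le _ _).trans (add_le_add (le_of_eq (abs_div _ _) |>.trans
    ((div_le_iff₀ hp).2 (h1.trans h2))) h3)
  have h5 : 0 < |x| ^ 3 := by positivity
  norm_num at h4 ⊢
  linarith

theorem ex1_bound {x : ℝ} (hx : |x| ≤ 1 / 4) :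
    |ex1 x - (1 + ((Int.ofNat 1 : ℤ) : ℝ) / 2 * x + x ^ 2 / (((5 : ℕ) : ℝ) + 1))| * 2 ^ 84 ≤
      |x| ^ 3 * 2 ^ 80 := by
  rcases eq_or_ne x 0 with rfl | h0
  · simp [ex1]
  have h1 := Real.exp_bound (x := x) (by linarith) (n := 4) (by norm_num)
  simp only [Finset.sum_range_succ, Finset.sum_range_zero, Nat.factorial] at h1
  have hp : 0 < |x| := abs_pos.2 h0
  have e : ex1 x - (1 + ((Int.ofNat 1 : ℤ) : ℝ) / 2 * x + x ^ 2 / (((5 : ℕ) : ℝ) + 1)) =
      (Real.exp x - (1 + x + x ^ 2 / 2 + x ^ 3 / 6)) / x := by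
    rw [ex1, if_neg h0, iofNat]; push_cast; field_simp; ring
  rw [e, abs_div]
  have h2 : |Real.exp x - (1 + x + x ^ 2 / 2 + x ^ 3 / 6)| ≤ |x| ^ 3 / 16 * |x| := by
    have h4 : 0 < |x| ^ 4 := by positivity
    refine le_trans (le_of_eq ?_) (h1.trans ?_)
    · congr 1; push_cast; ring
    · push_cast; nlinarith
  have h3 := (div_le_iff₀ hp).2 h2
  norm_num at h3 ⊢
  linarith

theorem fev_out (x : Fx) : ∀ {env : List AF} {ρ : List ℝ}, List.Forall₂ (AF.mem u) env ρ →
    ∀ {k : AF → Bool}, fev x env k = true → Out u (x.val ρ) k := by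
  induction x with
  | v i => intro env ρ hρ k h; exact getK_out i hρ h
  | c n d => intro env ρ hρ k h; exact ev_out hρ (.c n d) h
  | add x y p q =>
    intro env ρ hρ k h; obtain ⟨A, hA, h⟩ := p hρ h; obtain ⟨B, hB, h⟩ := q hρ h; exact addK_out hA hB h
  | sub x y p q =>
    intro env ρ hρ k h; obtain ⟨A, hA, h⟩ := p hρ h; obtain ⟨B, hB, h⟩ := q hρ h; exact subK_out hA hB h
  | mul x y p q =>
    intro env ρ hρ k h; obtain ⟨A, hA, h⟩ := p hρ h; obtain ⟨B, hB, h⟩ := q hρ h; exact mulK_out hA hB h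
  | sm n d x p => intro env ρ hρ k h; obtain ⟨A, hA, h⟩ := p hρ h; exact smK_out hA h
  | exp x p => intro env ρ hρ k h; obtain ⟨A, hA, h⟩ := p hρ h; exact expK_out hA h
  | log x p => intro env ρ hρ k h; obtain ⟨A, hA, h⟩ := p hρ h; exact logK_out hA h
  | max x y p q =>
    intro env ρ hρ k h; obtain ⟨A, hA, h⟩ := p hρ h; obtain ⟨B, hB, h⟩ := q hρ h; exact maxK_out hA hB h
  | min x y p q =>
    intro env ρ hρ k h; obtain ⟨A, hA, h⟩ := p hρ h; obtain ⟨B, hB, h⟩ := q hρ h; exact minK_out hA hB h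
  | maxs x y p q =>
    intro env ρ hρ k h; obtain ⟨A, hA, h⟩ := p hρ h; obtain ⟨B, hB, h⟩ := q hρ h; exact maxS_out hA hB h
  | mins x y p q =>
    intro env ρ hρ k h; obtain ⟨A, hA, h⟩ := p hρ h; obtain ⟨B, hB, h⟩ := q hρ h; exact minS_out hA hB h
  | its x y z p q r =>
    intro env ρ hρ k h
    obtain ⟨A, hA, h⟩ := p hρ h
    obtain ⟨h1, h2⟩ := itK_cases hA h
    change Out u (if 0 ≤ x.val ρ then y.val ρ else z.val ρ) k
    split_ifs with h0
    · exact q hρ (h1 h0)
    · exact r hρ (h2 h0)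
  | lt x y p q =>
    intro env ρ hρ k h
    obtain ⟨A, hA, h⟩ := p hρ h
    exact q (List.Forall₂.cons hA hρ) h
  | lc n d t =>
    intro env ρ hρ k h
    refine lcK_out hρ t (x := n) ?_ h
    unfold AF.mem AF.ln
    simp
  | lg1 x p =>
    intro env ρ hρ k h; obtain ⟨A, hA, h⟩ := p hρ h; exact polyK_out hA h lg1_bound
  | ex1 x p =>
    intro env ρ hρ k h; obtain ⟨A, hA, h⟩ := p hρ h; exact polyK_out hA h ex1_bound

theorem fleaf_sound {env : List AF} {ρ : List ℝ} (hρ : CEnv env ρ) {p : Fx} {B : Bx}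
    (h : fleaf env p B = true) {x y z w : ℝ} (hB : B.In x y z w) : 0 < p.val (x :: y :: z :: w :: ρ) := by
  simp only [fleaf, frI_eq] at h
  obtain ⟨a1, a2, b1, b2, c1, c2, d1, d2⟩ := hB
  obtain ⟨p1, hp1, e1⟩ := exists_noise (mid_le a1 a2)
  obtain ⟨p2, hp2, e2⟩ := exists_noise (mid_le b1 b2)
  obtain ⟨p3, hp3, e3⟩ := exists_noise (mid_le c1 c2)
  obtain ⟨p4, hp4, e4⟩ := exists_noise (mid_le d1 d2)
  obtain ⟨A, hA, h⟩ := fev_out (u := ⟨p1, p2, p3, p4, hp1, hp2, hp3, hp4⟩) p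
    (ρ := x :: y :: z :: w :: ρ) (by
      refine .cons ?_ (.cons ?_ (.cons ?_ (.cons ?_ (hρ _))))
      all_goals
        unfold AF.mem AF.ln
        simp only [iofNat]
        push_cast
        rw [abs_nonpos_iff]
        linarith) h
  exact AF.pos_sound hA h

theorem frun_sound {env : List AF} {ρ : List ℝ} (hρ : CEnv env ρ) {p0 p1 p2 p3 : Fx} (fuel : ℕ) :
    ∀ {code : ℕ} {B : Bx} {k : ℕ → Bool}, frun env p0 p1 p2 p3 fuel code B k = true →
      (∀ x y z w, B.In x y z w → FGood p0 p1 p2 p3 (x :: y :: z :: w :: ρ)) ∧ ∃ r, k r = true := by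
  induction fuel with
  | zero => intro code B k h; exact absurd h (by simp [frun])
  | succ f ih =>
    intro code B k h
    change frN _ (fun rest => Nat.rec (Bool.rec false (k rest) (fleaf env p0 B))
      (fun i _ => Bool.rec
        (Bool.rec false (k rest) (fleaf env (Bool.rec (Bool.rec p3 p2 (Nat.ble i 5)) p1 (Nat.ble i 4)) B))
        (halves i B fun B1 B2 => frun env p0 p1 p2 p3 f rest B1 fun rest' =>
          frun env p0 p1 p2 p3 f rest' B2 k) (Nat.ble i 3))
      (Nat.land code 7)) = true at h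
    rw [frN_eq] at h
    cases hd : Nat.land code 7 with
    | zero =>
      rw [hd] at h
      obtain ⟨h1, h2⟩ := brec h
      exact ⟨fun x y z w hB => Or.inl (fleaf_sound hρ h1 hB), _, h2⟩
    | succ i =>
      rw [hd] at h
      cases h3 : Nat.ble i 3 with
      | true =>
        simp only [h3] at h
        obtain ⟨B1, B2, e, hB⟩ := halves_eq i B
        rw [e] at h
        obtain ⟨g1, r, h⟩ := ih h
        obtain ⟨g2, hk⟩ := ih h
        exact ⟨fun x y z w h => (hB x y z w h).elim (g1 x y z w) (g2 x y z w), hk⟩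
      | false =>
        simp only [h3] at h
        obtain ⟨h1, h2⟩ := brec h
        refine ⟨fun x y z w hB => Or.inr ?_, _, h2⟩
        have := fleaf_sound hρ h1 hB
        cases h4 : Nat.ble i 4 with
        | true => rw [h4] at this; exact Or.inl this
        | false =>
          rw [h4] at this
          cases h5 : Nat.ble i 5 with
          | true => rw [h5] at this; exact Or.inr (Or.inl this)
          | false => rw [h5] at this; exact Or.inr (Or.inr this)

theorem fpre_sound (cs : List Fx) : ∀ {env : List AF} {ρ : List ℝ} {k : List AF → Bool},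
    CEnv env ρ → fpre cs env k = true → ∃ env', CEnv env' (fpreV cs ρ) ∧ k env' = true := by
  induction cs with
  | nil => intro env ρ k hρ h; exact ⟨env, hρ, h⟩
  | cons x cs ih =>
    intro env ρ k hρ h
    change fev x env (fun A => fpre cs
      (List.cons ⟨A.c, Int.ofNat 0, Int.ofNat 0, Int.ofNat 0, Int.ofNat 0, A.e⟩ env) k) = true at h
    obtain ⟨A, hA, h⟩ := fev_out x (hρ nz0) h
    refine ih (fun u => List.Forall₂.cons ?_ (hρ u)) h
    unfold AF.mem AF.ln nz0 at *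
    simpa using hA

theorem fcheck_sound {cs : List Fx} {p0 p1 p2 p3 : Fx} {B : Bx} {code : ℕ}
    (h : fcheck cs p0 p1 p2 p3 B code = true) : FHolds cs p0 p1 p2 p3 B := by
  simp only [fcheck, frF_eq] at h
  obtain ⟨env, hρ, h⟩ := fpre_sound cs (env := []) (ρ := []) (fun _ => List.Forall₂.nil) h
  exact (frun_sound hρ 200 h).1

variable {cs : List Fx} {p0 p1 p2 p3 : Fx} {a b c d e f g h : ℤ}

theorem FHolds.split1 (m : ℤ) (h1 : FHolds cs p0 p1 p2 p3 ⟨a, m, c, d, e, f, g, h⟩)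
    (h2 : FHolds cs p0 p1 p2 p3 ⟨m, b, c, d, e, f, g, h⟩) :
    FHolds cs p0 p1 p2 p3 ⟨a, b, c, d, e, f, g, h⟩ := fun x y z w ⟨a1, a2, r⟩ =>
  (le_total (x * S) m).elim (fun t => h1 x y z w ⟨a1, t, r⟩) fun t => h2 x y z w ⟨t, a2, r⟩
theorem FHolds.split2 (m : ℤ) (h1 : FHolds cs p0 p1 p2 p3 ⟨a, b, c, m, e, f, g, h⟩)
    (h2 : FHolds cs p0 p1 p2 p3 ⟨a, b, m, d, e, f, g, h⟩) :
    FHolds cs p0 p1 p2 p3 ⟨a, b, c, d, e, f, g, h⟩ := fun x y z w ⟨a1, a2, b1, b2, r⟩ =>
  (le_total (y * S) m).elim (fun t => h1 x y z w ⟨a1, a2, b1, t, r⟩) fun t => h2 x y z w ⟨a1, a2, t, b2, r⟩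
theorem FHolds.split3 (m : ℤ) (h1 : FHolds cs p0 p1 p2 p3 ⟨a, b, c, d, e, m, g, h⟩)
    (h2 : FHolds cs p0 p1 p2 p3 ⟨a, b, c, d, m, f, g, h⟩) :
    FHolds cs p0 p1 p2 p3 ⟨a, b, c, d, e, f, g, h⟩ := fun x y z w ⟨a1, a2, b1, b2, c1, c2, r⟩ =>
  (le_total (z * S) m).elim (fun t => h1 x y z w ⟨a1, a2, b1, b2, c1, t, r⟩)
    fun t => h2 x y z w ⟨a1, a2, b1, b2, t, c2, r⟩
theorem FHolds.split4 (m : ℤ) (h1 : FHolds cs p0 p1 p2 p3 ⟨a, b, c, d, e, f, g, m⟩)
    (h2 : FHolds cs p0 p1 p2 p3 ⟨a, b, c, d, e, f, m, h⟩) :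
    FHolds cs p0 p1 p2 p3 ⟨a, b, c, d, e, f, g, h⟩ := fun x y z w ⟨a1, a2, b1, b2, c1, c2, d1, d2⟩ =>
  (le_total (w * S) m).elim (fun t => h1 x y z w ⟨a1, a2, b1, b2, c1, c2, d1, t⟩)
    fun t => h2 x y z w ⟨a1, a2, b1, b2, c1, c2, t, d2⟩

end Crest.Agent.Lib.IBox
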