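import Crest.Agent.Lib.IBoxC

/-!
# Box prover with per-leaf data: a program index and `m` parameters `θ ∈ [0,1]`

Tree digits are as in `run` (3 bits; 0 = leaf).  After a leaf digit the code holds 6 bits (index of
the program in `ps`) and then `m` groups of 7 bits (`θ = min d 64 / 64`).  The registers seen by the
program are `x :: y :: z :: w :: (θ_m, …, θ_1) ++ constants` (the last parameter read comes first).
-/

set_option autoImplicit false

namespace Crest.Agent.Lib.IBox

noncomputable section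

/-- read `m` parameters -/
def thK (m : ℕ) : ℕ → List AF → (ℕ → List AF → Bool) → Bool :=
  Nat.rec (fun code env k => k code env)
    (fun _ ih code env k => frN (Nat.shiftRight code 7) fun rest =>
      frN (Nat.land code 127) fun d =>
      frN (Nat.mul (Bool.rec 64 d (Nat.ble d 64)) 17179869184) fun c =>
        ih rest (List.cons ⟨Int.ofNat c, Int.ofNat 0, Int.ofNat 0, Int.ofNat 0, Int.ofNat 0, 0⟩ env) k) m

def getP (i : ℕ) : List Pg → Pg :=
  Nat.rec (fun l => List.rec Pg.nil (fun A _ _ => A) l)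
    (fun _ ih l => List.rec Pg.nil (fun _ t _ => ih t) l) i

def runT (m : ℕ) (env : List AF) (ps : List Pg) (fuel : ℕ) : ℕ → Bx → (ℕ → Bool) → Bool :=
  Nat.rec (fun _ _ _ => false)
    (fun _ ih code B k => frN (Nat.shiftRight code 3) fun rest =>
      Nat.rec (frN (Nat.land rest 63) fun j => frN (Nat.shiftRight rest 6) fun rest1 =>
          thK m rest1 env fun rest2 env' => Bool.rec false (k rest2) (leaf env' (getP j ps) B))
        (fun i _ => halves i B fun B1 B2 => ih rest B1 fun rest' => ih rest' B2 k)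
        (Nat.land code 7)) fuel

def checkT (m : ℕ) (cs : List Ex) (ps : List Pg) (B : Bx) (code : ℕ) : Bool :=
  pre cs List.nil fun env => runT m env ps 200 code B fun _ => true

/-- what one leaf certifies at a point -/
def GoodT (m : ℕ) (ps : List Pg) (ρ : List ℝ) (x y z w : ℝ) : Prop :=
  ∃ p ∈ ps, ∃ th : List ℝ, th.length = m ∧ (∀ t ∈ th, 0 ≤ t ∧ t ≤ 1) ∧
    p.Good (x :: y :: z :: w :: (th ++ ρ))

/-- the statement certified by `checkT` -/
def HoldsT (m : ℕ) (cs : List Ex) (ps : List Pg) (B : Bx) : Prop :=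
  ∀ x y z w : ℝ, B.In x y z w → GoodT m ps (preV cs []) x y z w

end

theorem thK_sound (m : ℕ) : ∀ {code : ℕ} {env : List AF} {ρ : List ℝ} {k : ℕ → List AF → Bool},
    CEnv env ρ → thK m code env k = true → ∃ (th : List ℝ) (rest : ℕ) (env' : List AF),
      th.length = m ∧ (∀ t ∈ th, 0 ≤ t ∧ t ≤ 1) ∧ CEnv env' (th ++ ρ) ∧ k rest env' = true := by
  induction m with
  | zero => intro code env ρ k hρ h; exact ⟨[], code, env, rfl, by simp, hρ, h⟩
  | succ m ih =>
    intro code env ρ k hρ h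
    change frN _ (fun rest => frN (Nat.land code 127) fun d =>
      frN (Nat.mul (Bool.rec 64 d (Nat.ble d 64)) 17179869184) fun c =>
        thK m rest (List.cons ⟨Int.ofNat c, Int.ofNat 0, Int.ofNat 0, Int.ofNat 0, Int.ofNat 0, 0⟩ env) k)
      = true at h
    rw [frN_eq, frN_eq, frN_eq] at h
    obtain ⟨d, hd, h⟩ : ∃ d : ℕ, d ≤ 64 ∧ thK m (Nat.shiftRight code 7)
        (List.cons ⟨Int.ofNat (Nat.mul d 17179869184), Int.ofNat 0, Int.ofNat 0, Int.ofNat 0,
          Int.ofNat 0, 0⟩ env) k = true := by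
      refine ⟨_, ?_, h⟩
      cases hb : Nat.ble (Nat.land code 127) 64 with
      | true => exact Nat.le_of_ble_eq_true hb
      | false => exact le_rfl
    have hd' : (d : ℝ) ≤ 64 := by exact_mod_cast hd
    obtain ⟨th, rest, env', h1, h2, h3, h4⟩ := ih (ρ := ((d : ℝ) / 64) :: ρ) (fun u => by
      refine List.Forall₂.cons ?_ (hρ u)
      unfold AF.mem AF.ln
      simp only [iofNat, nmul]
      rw [S_val]
      push_cast
      rw [abs_nonpos_iff]
      ring) h
    refine ⟨th ++ [(d : ℝ) / 64], rest, env', by simp [h1], fun t ht => ?_, by simpa using h3, h4⟩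
    rcases List.mem_append.1 ht with h5 | h5
    · exact h2 t h5
    · rw [List.mem_singleton.1 h5]
      exact ⟨by positivity, by linarith⟩

theorem getP_mem (i : ℕ) : ∀ ps : List Pg, getP i ps = Pg.nil ∨ getP i ps ∈ ps := by
  induction i with
  | zero =>
    intro ps
    cases ps with
    | nil => exact Or.inl rfl
    | cons p t => exact Or.inr List.mem_cons_self
  | succ i ih =>
    intro ps
    cases ps with
    | nil => exact Or.inl rfl
    | cons p t => exact (ih t).imp id (List.mem_cons_of_mem _)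

theorem runT_sound {m : ℕ} {env : List AF} {ρ : List ℝ} (hρ : CEnv env ρ) {ps : List Pg} (fuel : ℕ) :
    ∀ {code : ℕ} {B : Bx} {k : ℕ → Bool}, runT m env ps fuel code B k = true →
      (∀ x y z w, B.In x y z w → GoodT m ps ρ x y z w) ∧ ∃ r, k r = true := by
  induction fuel with
  | zero => intro code B k h; exact absurd h (by simp [runT])
  | succ f ih =>
    intro code B k h
    change frN _ (fun rest => Nat.rec (frN (Nat.land rest 63) fun j =>
        frN (Nat.shiftRight rest 6) fun rest1 =>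
          thK m rest1 env fun rest2 env' => Bool.rec false (k rest2) (leaf env' (getP j ps) B))
      (fun i _ => halves i B fun B1 B2 => runT m env ps f rest B1 fun rest' => runT m env ps f rest' B2 k)
      (Nat.land code 7)) = true at h
    rw [frN_eq] at h
    cases hd : Nat.land code 7 with
    | zero =>
      rw [hd] at h
      change frN _ _ = true at h
      rw [frN_eq, frN_eq] at h
      obtain ⟨th, rest, env', h1, h2, h3, h4⟩ := thK_sound m hρ h
      obtain ⟨h5, h6⟩ := brec h4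
      refine ⟨fun x y z w hB => ?_, _, h6⟩
      have h7 := leaf_sound h3 h5 hB
      rcases getP_mem (Nat.land (Nat.shiftRight code 3) 63) ps with h8 | h8
      · rw [h8] at h7
        exact h7.elim
      · exact ⟨_, h8, th, h1, h2, h7⟩
    | succ i =>
      rw [hd] at h
      obtain ⟨B1, B2, e, hB⟩ := halves_eq i B
      change halves i B _ = true at h
      rw [e] at h
      obtain ⟨g1, r, h⟩ := ih h
      obtain ⟨g2, hk⟩ := ih h
      exact ⟨fun x y z w h => (hB x y z w h).elim (g1 x y z w) (g2 x y z w), hk⟩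

theorem checkT_sound {m : ℕ} {cs : List Ex} {ps : List Pg} {B : Bx} {code : ℕ}
    (h : checkT m cs ps B code = true) : HoldsT m cs ps B := by
  obtain ⟨env, hρ, h⟩ := pre_sound cs (env := []) (ρ := []) (fun _ => List.Forall₂.nil) h
  exact (runT_sound hρ 200 h).1

theorem HoldsT.split1 {n : ℕ} {cs : List Ex} {p : List Pg} {a b c d e f g h : ℤ} (m : ℤ)
    (h1 : HoldsT n cs p ⟨a, m, c, d, e, f, g, h⟩) (h2 : HoldsT n cs p ⟨m, b, c, d, e, f, g, h⟩) :
    HoldsT n cs p ⟨a, b, c, d, e, f, g, h⟩ := fun x y z w ⟨a1, a2, r⟩ =>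
  (le_total (x * S) m).elim (fun t => h1 x y z w ⟨a1, t, r⟩) fun t => h2 x y z w ⟨t, a2, r⟩
theorem HoldsT.split2 {n : ℕ} {cs : List Ex} {p : List Pg} {a b c d e f g h : ℤ} (m : ℤ)
    (h1 : HoldsT n cs p ⟨a, b, c, m, e, f, g, h⟩) (h2 : HoldsT n cs p ⟨a, b, m, d, e, f, g, h⟩) :
    HoldsT n cs p ⟨a, b, c, d, e, f, g, h⟩ := fun x y z w ⟨a1, a2, b1, b2, r⟩ =>
  (le_total (y * S) m).elim (fun t => h1 x y z w ⟨a1, a2, b1, t, r⟩)
    fun t => h2 x y z w ⟨a1, a2, t, b2, r⟩
theorem HoldsT.split3 {n : ℕ} {cs : List Ex} {p : List Pg} {a b c d e f g h : ℤ} (m : ℤ)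
    (h1 : HoldsT n cs p ⟨a, b, c, d, e, m, g, h⟩) (h2 : HoldsT n cs p ⟨a, b, c, d, m, f, g, h⟩) :
    HoldsT n cs p ⟨a, b, c, d, e, f, g, h⟩ := fun x y z w ⟨a1, a2, b1, b2, c1, c2, r⟩ =>
  (le_total (z * S) m).elim (fun t => h1 x y z w ⟨a1, a2, b1, b2, c1, t, r⟩)
    fun t => h2 x y z w ⟨a1, a2, b1, b2, t, c2, r⟩
theorem HoldsT.split4 {n : ℕ} {cs : List Ex} {p : List Pg} {a b c d e f g h : ℤ} (m : ℤ)
    (h1 : HoldsT n cs p ⟨a, b, c, d, e, f, g, m⟩) (h2 : HoldsT n cs p ⟨a, b, c, d, e, f, m, h⟩) :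
    HoldsT n cs p ⟨a, b, c, d, e, f, g, h⟩ := fun x y z w ⟨a1, a2, b1, b2, c1, c2, d1, d2⟩ =>
  (le_total (w * S) m).elim (fun t => h1 x y z w ⟨a1, a2, b1, b2, c1, c2, d1, t⟩)
    fun t => h2 x y z w ⟨a1, a2, b1, b2, c1, c2, t, d2⟩

end Crest.Agent.Lib.IBox
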